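import Vale.Agent.P068.MathlibUsed
import Vale.Agent.P068.Defs

set_option linter.all false

section

section

namespace Vale.Agent.P068

/-- The subset of `ℕ ⊕ ℕ` with left part `P` and right part the complement of `Q`. -/
def blk (P Q : Set ℕ) : Set (ℕ ⊕ ℕ) := Sum.inl '' P ∪ Sum.inr '' Qᶜ

/-- A uniform matroid on `ℕ ⊕ ℕ` following a ranked cut of the power set of `ℕ`. -/
structure Ranked (K : Matroid (ℕ ⊕ ℕ)) (big : Set ℕ → Prop) (rk : Set ℕ → Ordinal.{0}) :
    Prop where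
  ground : K.E = Set.univ
  uniform : ∀ D : Set (ℕ ⊕ ℕ), K.Indep D ∨ K.Spanning D
  not_big_empty : ¬ big ∅
  big_univ : big Set.univ
  of_indep : ∀ P Q : Set ℕ, K.Indep (blk P Q) → big P → big Q ∧ rk Q < rk P
  of_spanning : ∀ P Q : Set ℕ, K.Spanning (blk P Q) → ¬ big P → ¬ big Q ∧ rk Q < rk P

end Vale.Agent.P068
end
end

section

section

open Set

namespace Vale.Agent.P068

variable {α β ι : Type*}

/-- The pair `(M, N)` satisfies intersection. -/
def Intersects (M N : Matroid α) : Prop :=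
  ∃ JM JN : Set α, Disjoint JM JN ∧ M.Indep (JM ∪ JN) ∧ N.Indep (JM ∪ JN) ∧
    M.closure JM ∪ N.closure JN = M.E

/-- `M` is the direct sum of the matroids `B i` placed along the maps `ψ i`. -/
structure Blocks (M : Matroid α) (B : ι → Matroid β) (ψ : ι → β → α) : Prop where
  indep : ∀ I, M.Indep I ↔ ∀ i, (B i).Indep (ψ i ⁻¹' I)
  inj : ∀ i j x y, ψ i x = ψ j y → i = j ∧ x = y
  ground : ∀ i, (B i).E = univ

theorem Blocks.mem_closure {M : Matroid α} {B : ι → Matroid β} {ψ : ι → β → α}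
    (h : Blocks M B ψ) {A : Set α} (hA : M.Indep A) {i : ι} {x : β}
    (hx : ψ i x ∈ M.closure A) (hx' : ψ i x ∉ A) : x ∈ (B i).closure (ψ i ⁻¹' A) := by
  have hAi : ∀ j, (B j).Indep (ψ j ⁻¹' A) := (h.indep A).mp hA
  rw [(hAi i).mem_closure_iff']
  refine ⟨by rw [h.ground]; trivial, fun hins => ?_⟩
  rw [hA.mem_closure_iff'] at hx
  refine absurd (hx.2 ?_) hx'
  rw [h.indep]
  intro j
  by_cases hj : j = i
  · subst hj
    have : ψ j ⁻¹' (insert (ψ j x) A) = insert x (ψ j ⁻¹' A) := by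
      ext y
      simp only [mem_preimage, mem_insert_iff]
      constructor
      · rintro (hy | hy)
        · exact Or.inl (h.inj _ _ _ _ hy).2
        · exact Or.inr hy
      · rintro (rfl | hy)
        · exact Or.inl rfl
        · exact Or.inr hy
    rw [this]
    exact hins
  · have : ψ j ⁻¹' (insert (ψ i x) A) = ψ j ⁻¹' A := by
      ext y
      simp only [mem_preimage, mem_insert_iff]
      constructor
      · rintro (hy | hy)
        · exact absurd (h.inj _ _ _ _ hy).1 hj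
        · exact hy
      · exact Or.inr
    rw [this]
    exact hAi j

/-- In a uniform matroid a non-spanning set is closed. -/
theorem mem_of_mem_closure_uniform {B : Matroid β} (hu : ∀ D, B.Indep D ∨ B.Spanning D)
    {A : Set β} (hA : ¬ B.Spanning A) {x : β} (hx : x ∈ B.closure A) : x ∈ A := by
  by_contra hxA
  have hAi : B.Indep A := (hu A).resolve_right hA
  have h1 : ¬ B.Indep (insert x A) := fun hins => hxA (((hAi.mem_closure_iff').mp hx).2 hins)
  have h2 : B.Spanning (insert x A) := (hu _).resolve_left h1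
  apply hA
  rw [Matroid.spanning_iff_closure_eq hAi.subset_ground, ← Matroid.closure_insert_eq_of_mem_closure hx]
  exact h2.closure_eq

/-- The ray lemma. -/
theorem ray {K : Matroid (ℕ ⊕ ℕ)} {big : Set ℕ → Prop} {rk : Set ℕ → Ordinal.{0}}
    (h : Ranked K big rk) (P Q : ℕ → Set ℕ) (sa sb : ℕ → Prop)
    (ha1 : ∀ n, sa n → K.Spanning (blk (P n) (Q n)))
    (ha2 : ∀ n, ¬ sa n → K.Indep (blk (P n) (Q n)))
    (hb1 : ∀ n, sb n → K.Spanning (blk (Q n) (P (n + 1))))
    (hb2 : ∀ n, ¬ sb n → K.Indep (blk (Q n) (P (n + 1))))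
    (hab1 : ∀ n, sa n → ¬ sb n → Q n = univ)
    (hab2 : ∀ n, ¬ sa n → sb n → Q n = ∅)
    (hba1 : ∀ n, sb n → ¬ sa (n + 1) → P (n + 1) = univ)
    (hba2 : ∀ n, ¬ sb n → sa (n + 1) → P (n + 1) = ∅) :
    (big (P 0) → sa 0) ∧ (¬ big (P 0) → ¬ sa 0) := by
  have key1 : ∀ o : Ordinal.{0}, ∀ n, rk (P n) = o → big (P n) → sa n := by
    intro o
    induction o using WellFoundedLT.induction with
    | ind o ih =>
      intro n hn hbig
      by_contra hsa
      obtain ⟨h1, h2⟩ := h.of_indep _ _ (ha2 n hsa) hbig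
      have hsb : ¬ sb n := by
        intro hsb
        rw [hab2 n hsa hsb] at h1
        exact h.not_big_empty h1
      obtain ⟨h3, h4⟩ := h.of_indep _ _ (hb2 n hsb) h1
      have hsa' : ¬ sa (n + 1) := by
        intro hsa'
        rw [hba2 n hsb hsa'] at h3
        exact h.not_big_empty h3
      exact hsa' (ih (rk (P (n + 1))) (by rw [← hn]; exact h4.trans h2) (n + 1) rfl h3)
  have key2 : ∀ o : Ordinal.{0}, ∀ n, rk (P n) = o → ¬ big (P n) → ¬ sa n := by
    intro o
    induction o using WellFoundedLT.induction with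
    | ind o ih =>
      intro n hn hbig hsa
      obtain ⟨h1, h2⟩ := h.of_spanning _ _ (ha1 n hsa) hbig
      have hsb : sb n := by
        by_contra hsb
        rw [hab1 n hsa hsb] at h1
        exact h1 h.big_univ
      obtain ⟨h3, h4⟩ := h.of_spanning _ _ (hb1 n hsb) h1
      have hsa' : sa (n + 1) := by
        by_contra hsa'
        rw [hba1 n hsb hsa'] at h3
        exact h3 h.big_univ
      exact ih (rk (P (n + 1))) (by rw [← hn]; exact h4.trans h2) (n + 1) rfl h3 hsa'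
  exact ⟨key1 _ 0 rfl, key2 _ 0 rfl⟩

/-- the relabelling which shifts the bundles by one place -/
def shiftEquiv : ℤ × (ℕ ⊕ ℕ) ≃ ℤ × (ℕ ⊕ ℕ) where
  toFun p := Sum.elim (fun n => (p.1, Sum.inr n)) (fun n => (p.1 + 1, Sum.inl n)) p.2
  invFun p := Sum.elim (fun n => (p.1 - 1, Sum.inr n)) (fun n => (p.1, Sum.inl n)) p.2
  left_inv := by rintro ⟨m, n | n⟩ <;> simp
  right_inv := by rintro ⟨m, n | n⟩ <;> simp

/-- the blocks: `K` on the right, its swapped dual on the left -/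
noncomputable def blockMat (K : Matroid (ℕ ⊕ ℕ)) (m : ℤ) : Matroid (ℕ ⊕ ℕ) :=
  if 0 ≤ m then K else (K✶).mapEquiv (Equiv.sumComm ℕ ℕ)

noncomputable def netM (K : Matroid (ℕ ⊕ ℕ)) : Matroid (ℤ × (ℕ ⊕ ℕ)) :=
  Matroid.sum' (blockMat K)

noncomputable def netN (K : Matroid (ℕ ⊕ ℕ)) : Matroid (ℤ × (ℕ ⊕ ℕ)) :=
  (Matroid.sum' (fun m => (blockMat K m)✶)).mapEquiv shiftEquiv

theorem blockMat_ground {K : Matroid (ℕ ⊕ ℕ)} (hK : K.E = univ) (m : ℤ) :
    (blockMat K m).E = univ := by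
  unfold blockMat
  split_ifs
  · exact hK
  · rw [Matroid.mapEquiv_ground_eq, Matroid.dual_ground, hK, image_univ]
    exact (Equiv.sumComm ℕ ℕ).surjective.range_eq

theorem netM_ground {K : Matroid (ℕ ⊕ ℕ)} (hK : K.E = univ) : (netM K).E = univ := by
  rw [netM, Matroid.sum'_ground_eq]
  ext ⟨m, x⟩
  simp only [blockMat_ground hK, image_univ, mem_iUnion, mem_range, Prod.mk.injEq, exists_eq_right, exists_eq, mem_univ]

theorem netN_ground {K : Matroid (ℕ ⊕ ℕ)} (hK : K.E = univ) : (netN K).E = univ := by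
  have h1 : (Matroid.sum' (fun m => (blockMat K m)✶)).E = univ := by
    rw [Matroid.sum'_ground_eq]
    ext ⟨m, x⟩
    simp only [Matroid.dual_ground, blockMat_ground hK, image_univ, mem_iUnion, mem_range, Prod.mk.injEq, exists_eq_right, exists_eq, mem_univ]
  rw [netN, Matroid.mapEquiv_ground_eq, h1, image_univ]
  exact shiftEquiv.surjective.range_eq

theorem netM_blocks {K : Matroid (ℕ ⊕ ℕ)} (hK : K.E = univ) :
    Blocks (netM K) (blockMat K) (fun m x => (m, x)) where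
  indep := fun I => by
    rw [netM, Matroid.sum'_indep_iff]
  inj := fun i j x y hxy => by
    simpa using hxy
  ground := blockMat_ground hK

theorem netN_blocks {K : Matroid (ℕ ⊕ ℕ)} (hK : K.E = univ) :
    Blocks (netN K) (fun m => (blockMat K m)✶) (fun m x => shiftEquiv (m, x)) where
  indep := fun I => by
    rw [netN, Matroid.mapEquiv_indep_iff, Matroid.sum'_indep_iff]
    refine forall_congr' fun m => ?_
    have : Prod.mk m ⁻¹' (shiftEquiv.symm '' I) = (fun x => shiftEquiv (m, x)) ⁻¹' I := by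
      ext x
      rw [Equiv.image_symm_eq_preimage]
      rfl
    rw [this]
  inj := fun i j x y hxy => by
    simpa using shiftEquiv.injective hxy
  ground := fun m => by
    rw [Matroid.dual_ground]
    exact blockMat_ground hK m

theorem compl_blk_swap (P Q : Set ℕ) :
    (Equiv.sumComm ℕ ℕ).symm '' (blk P Q) = (blk Q P)ᶜ := by
  ext x
  rcases x with n | n <;> simp [blk]

theorem spanning_iff_of_univ {M : Matroid α} (hM : M.E = univ) (X : Set α) :
    M✶.Spanning Xᶜ ↔ M.Indep X := by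
  have h1 : (M✶).E = univ := by rw [Matroid.dual_ground, hM]
  rw [Matroid.spanning_iff_compl_coindep (by rw [h1]; exact subset_univ _), h1,
    Matroid.coindep_def, Matroid.dual_dual, ← compl_eq_univ_sdiff, compl_compl]

theorem indep_iff_of_univ {M : Matroid α} (hM : M.E = univ) (X : Set α) :
    M✶.Indep Xᶜ ↔ M.Spanning X := by
  rw [Matroid.spanning_iff_compl_coindep (by rw [hM]; exact subset_univ _), hM,
    Matroid.coindep_def, ← compl_eq_univ_sdiff]

theorem mapEquiv_spanning_iff {M : Matroid α} (e : α ≃ β) (X : Set β) :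
    (M.mapEquiv e).Spanning X ↔ M.Spanning (e.symm '' X) := by
  rw [Matroid.spanning_iff_exists_isBase_subset', Matroid.spanning_iff_exists_isBase_subset']
  constructor
  · rintro ⟨⟨B, hB, hBX⟩, hX⟩
    refine ⟨⟨e.symm '' B, by simpa using hB, image_mono hBX⟩, ?_⟩
    rw [Matroid.mapEquiv_ground_eq] at hX
    rintro _ ⟨x, hx, rfl⟩
    obtain ⟨y, hy, rfl⟩ := hX hx
    simpa using hy
  · rintro ⟨⟨B, hB, hBX⟩, hX⟩
    refine ⟨⟨e '' B, ?_, ?_⟩, ?_⟩
    · rw [Matroid.mapEquiv_isBase_iff, ← image_comp]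
      simpa using hB
    · rintro _ ⟨b, hb, rfl⟩
      obtain ⟨y, hy, hyb⟩ := hBX hb
      rw [← hyb]
      simpa using hy
    · rw [Matroid.mapEquiv_ground_eq]
      intro x hx
      exact ⟨e.symm x, hX ⟨x, hx, rfl⟩, by simp⟩

theorem blockMat_neg_indep {K : Matroid (ℕ ⊕ ℕ)} (hK : K.E = univ) {m : ℤ} (hm : ¬ 0 ≤ m)
    (P Q : Set ℕ) : (blockMat K m).Indep (blk P Q) ↔ K.Spanning (blk Q P) := by
  rw [blockMat, if_neg hm, Matroid.mapEquiv_indep_iff, compl_blk_swap, indep_iff_of_univ hK]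

theorem blockMat_neg_spanning {K : Matroid (ℕ ⊕ ℕ)} (hK : K.E = univ) {m : ℤ} (hm : ¬ 0 ≤ m)
    (P Q : Set ℕ) : (blockMat K m).Spanning (blk P Q) ↔ K.Indep (blk Q P) := by
  rw [blockMat, if_neg hm, mapEquiv_spanning_iff, compl_blk_swap, spanning_iff_of_univ hK]

theorem dual_uniform {M : Matroid α} (hM : M.E = univ) (hu : ∀ D, M.Indep D ∨ M.Spanning D)
    (D : Set α) : M✶.Indep D ∨ M✶.Spanning D := by
  rcases hu Dᶜ with h | h
  · right
    rw [← spanning_iff_of_univ hM, compl_compl] at h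
    exact h
  · left
    rw [← indep_iff_of_univ hM, compl_compl] at h
    exact h

theorem blockMat_uniform {K : Matroid (ℕ ⊕ ℕ)} (hK : K.E = univ)
    (hu : ∀ D, K.Indep D ∨ K.Spanning D) (m : ℤ) (D : Set (ℕ ⊕ ℕ)) :
    (blockMat K m).Indep D ∨ (blockMat K m).Spanning D := by
  unfold blockMat
  split_ifs
  · exact hu D
  · rw [Matroid.mapEquiv_indep_iff, mapEquiv_spanning_iff]
    exact dual_uniform hK hu _

theorem not_intersects {K : Matroid (ℕ ⊕ ℕ)} {big : Set ℕ → Prop} {rk : Set ℕ → Ordinal.{0}}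
    (h : Ranked K big rk) : ¬ Intersects (netM K) (netN K) := by
  rintro ⟨JM, JN, hdisj, hMI, hNI, hcl⟩
  have hK := h.ground
  have hMB := netM_blocks hK
  have hNB := netN_blocks hK
  rw [netM_ground hK] at hcl
  let P : ℤ → Set ℕ := fun m => {n | (m, Sum.inl n) ∈ JM ∪ JN}
  let Q : ℤ → Set ℕ := fun m => {n | (m, Sum.inr n) ∉ JM ∪ JN}
  let sa : ℤ → Prop := fun m => (blockMat K m).Spanning ((fun x => (m, x)) ⁻¹' JM)
  let sb : ℤ → Prop := fun m => ¬ ((blockMat K m)✶).Spanning ((fun x => shiftEquiv (m, x)) ⁻¹' JN)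
  have eM : ∀ m, (fun x => (m, x)) ⁻¹' (JM ∪ JN) = blk (P m) (Q m) := by
    intro m
    ext x
    rcases x with n | n <;> simp [blk, P, Q]
    (clear * -; tauto)
  have eN : ∀ m, (fun x => shiftEquiv (m, x)) ⁻¹' (JM ∪ JN) = (blk (Q m) (P (m + 1)))ᶜ := by
    intro m
    ext x
    rcases x with n | n <;> simp [blk, P, Q, shiftEquiv] <;> (clear * -; tauto)
  have iM : ∀ m, (blockMat K m).Indep (blk (P m) (Q m)) := by
    intro m
    rw [← eM]
    exact (hMB.indep _).mp hMI m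
  have iN : ∀ m, ((blockMat K m)✶).Indep (blk (Q m) (P (m + 1)))ᶜ := by
    intro m
    rw [← eN]
    exact (hNB.indep _).mp hNI m
  have A1 : ∀ m, sa m → (blockMat K m).Spanning (blk (P m) (Q m)) := by
    intro m hm
    refine Matroid.Spanning.superset hm ?_ ?_
    · rw [← eM]
      exact preimage_mono subset_union_left
    · rw [blockMat_ground hK]
      exact subset_univ _
  have B1 : ∀ m, (blockMat K m).Spanning (blk (Q m) (P (m + 1))) := by
    intro m
    exact (indep_iff_of_univ (blockMat_ground hK m) _).mp (iN m)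
  have B2 : ∀ m, ¬ sb m → (blockMat K m).Indep (blk (Q m) (P (m + 1))) := by
    intro m hm
    have hm' := not_not.mp hm
    rw [← spanning_iff_of_univ (blockMat_ground hK m)]
    refine Matroid.Spanning.superset hm' ?_ ?_
    · rw [← eN]
      exact preimage_mono subset_union_right
    · rw [Matroid.dual_ground, blockMat_ground hK]
      exact subset_univ _
  have qa : ∀ m x, sa m → (m, x) ∈ JM ∪ JN → (m, x) ∈ JM := by
    intro m x hm hx
    have h1 := Matroid.Indep.eq_of_spanning_subset ((hMB.indep _).mp hMI m) hm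
      (preimage_mono subset_union_left)
    have h2 : x ∈ (fun x => (m, x)) ⁻¹' (JM ∪ JN) := hx
    rw [← h1] at h2
    exact h2
  have qb : ∀ m x, ¬ sb m → shiftEquiv (m, x) ∈ JM ∪ JN → shiftEquiv (m, x) ∈ JN := by
    intro m x hm hx
    have h1 := Matroid.Indep.eq_of_spanning_subset ((hNB.indep _).mp hNI m) (not_not.mp hm)
      (preimage_mono subset_union_right)
    have h2 : x ∈ (fun x => shiftEquiv (m, x)) ⁻¹' (JM ∪ JN) := hx
    rw [← h1] at h2
    exact h2
  have ra : ∀ m x, ¬ sa m → (m, x) ∈ (netM K).closure JM → (m, x) ∈ JM := by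
    intro m x hm hx
    by_contra hx'
    have h1 := hMB.mem_closure (hMI.subset subset_union_left) hx hx'
    exact hx' (mem_of_mem_closure_uniform (blockMat_uniform hK h.uniform m) hm h1)
  have rb : ∀ m x, sb m → shiftEquiv (m, x) ∈ (netN K).closure JN → shiftEquiv (m, x) ∈ JN := by
    intro m x hm hx
    by_contra hx'
    have h1 := hNB.mem_closure (hNI.subset subset_union_right) hx hx'
    exact hx' (mem_of_mem_closure_uniform
      (dual_uniform (blockMat_ground hK m) (blockMat_uniform hK h.uniform m)) hm h1)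
  have all : ∀ p, p ∈ (netM K).closure JM ∨ p ∈ (netN K).closure JN := by
    intro p
    have : p ∈ (netM K).closure JM ∪ (netN K).closure JN := by rw [hcl]; trivial
    exact this
  have AB1 : ∀ m, sa m → ¬ sb m → Q m = univ := by
    intro m h1 h2
    refine eq_univ_of_forall fun n hn => ?_
    exact Set.disjoint_left.mp hdisj (qa m (Sum.inr n) h1 hn) (qb m (Sum.inl n) h2 hn)
  have AB2 : ∀ m, ¬ sa m → sb m → Q m = ∅ := by
    intro m h1 h2
    refine eq_empty_of_forall_notMem fun n hn => hn ?_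
    rcases all (m, Sum.inr n) with h3 | h3
    · exact Or.inl (ra m (Sum.inr n) h1 h3)
    · exact Or.inr (rb m (Sum.inl n) h2 h3)
  have BA1 : ∀ m, sb m → ¬ sa (m + 1) → P (m + 1) = univ := by
    intro m h1 h2
    refine eq_univ_of_forall fun n => ?_
    rcases all (m + 1, Sum.inl n) with h3 | h3
    · exact Or.inl (ra (m + 1) (Sum.inl n) h2 h3)
    · exact Or.inr (rb m (Sum.inr n) h1 h3)
  have BA2 : ∀ m, ¬ sb m → sa (m + 1) → P (m + 1) = ∅ := by
    intro m h1 h2
    refine eq_empty_of_forall_notMem fun n hn => ?_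
    exact Set.disjoint_left.mp hdisj (qa (m + 1) (Sum.inl n) h2 hn) (qb m (Sum.inr n) h1 hn)
  have hpos : ∀ n : ℕ, blockMat K (n : ℤ) = K := by
    intro n
    rw [blockMat, if_pos (Int.natCast_nonneg n)]
  have hneg : ∀ n : ℕ, ¬ 0 ≤ (-(n : ℤ) - 1) := by
    intro n
    omega
  have right := ray h (fun n => P n) (fun n => Q n) (fun n => sa n) (fun n => sb n)
    (fun n hn => by have := A1 n hn; rwa [hpos] at this)
    (fun n _ => by have := iM n; rwa [hpos] at this)
    (fun n _ => by have := B1 n; rw [hpos] at this; exact_mod_cast this)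
    (fun n hn => by have := B2 n hn; rw [hpos] at this; exact_mod_cast this)
    (fun n => AB1 n) (fun n => AB2 n)
    (fun n h1 h2 => by have := BA1 n h1 (by exact_mod_cast h2); exact_mod_cast this)
    (fun n h1 h2 => by have := BA2 n h1 (by exact_mod_cast h2); exact_mod_cast this)
  have e1 : ∀ n : ℕ, -(n : ℤ) - 1 + 1 = -(n : ℤ) := fun n => by ring
  have e2 : ∀ n : ℕ, -((n + 1 : ℕ) : ℤ) = -(n : ℤ) - 1 := fun n => by push_cast; ring
  have e3 : ∀ n : ℕ, -((n + 1 : ℕ) : ℤ) - 1 + 1 = -(n : ℤ) - 1 := fun n => by push_cast; ring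
  have left := ray h (fun n => P (-(n : ℤ))) (fun n => Q (-(n : ℤ) - 1))
    (fun n => ¬ sb (-(n : ℤ) - 1)) (fun n => ¬ sa (-(n : ℤ) - 1))
    (fun n hn => by
      have := B2 _ hn
      rw [blockMat_neg_indep hK (hneg n), e1] at this
      exact this)
    (fun n hn => by
      have := B1 (-(n : ℤ) - 1)
      rw [blockMat_neg_spanning hK (hneg n), e1] at this
      exact this)
    (fun n hn => by
      have := iM (-(n : ℤ) - 1)
      rw [blockMat_neg_indep hK (hneg n)] at this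
      simp only [e2]
      exact this)
    (fun n hn => by
      have := A1 _ (not_not.mp hn)
      rw [blockMat_neg_spanning hK (hneg n)] at this
      simp only [e2]
      exact this)
    (fun n h1 h2 => AB1 _ (not_not.mp h2) h1)
    (fun n h1 h2 => AB2 _ h2 (not_not.mp h1))
    (fun n h1 h2 => by
      have := BA1 _ (not_not.mp h2) (by rw [e3]; exact h1)
      rw [e3] at this
      simp only [e2]
      exact this)
    (fun n h1 h2 => by
      have := BA2 _ h2 (by rw [e3]; exact not_not.mp h1)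
      rw [e3] at this
      simp only [e2]
      exact this)
  simp only [Nat.cast_zero, neg_zero, zero_sub] at left right
  by_cases hb : big (P 0)
  · have := BA2 (-1) (left.1 hb) (by simpa using right.1 hb)
    rw [show (-1 : ℤ) + 1 = 0 by norm_num] at this
    rw [this] at hb
    exact h.not_big_empty hb
  · have := BA1 (-1) (not_not.mp (left.2 hb)) (by simpa using right.2 hb)
    rw [show (-1 : ℤ) + 1 = 0 by norm_num] at this
    rw [this] at hb
    exact hb h.big_univ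

end Vale.Agent.P068
end
end

section

section

/-!
# P068: level structures and negligible sets

Interface for the ZFC version of the counterexample: a countable type is divided into finite
levels, and a set is negligible when its density in the levels tends to zero.
-/

open Cardinal Set Filter

namespace Vale.Agent.P068

variable {α : Type*}

/-- the number of elements of `A` of level `n` -/
noncomputable def lcnt (lev : α → ℕ) (A : Set α) (n : ℕ) : ℕ := (A ∩ {a | lev a = n}).ncard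

/-- `A` is negligible: its relative size in level `n` tends to zero -/
def Nul (lev : α → ℕ) (w : ℕ → ℕ) (A : Set α) : Prop :=
  ∀ j : ℕ, ∀ᶠ n in atTop, j * lcnt lev A n ≤ w n

/-- the levels are finite and the weights grow much faster than the union of the previous
levels -/
structure Levels (lev : α → ℕ) (w : ℕ → ℕ) : Prop where
  fin : ∀ n, {a | lev a = n}.Finite
  growth : ∀ j : ℕ, ∀ᶠ n in atTop, j * ({a | lev a < n}.ncard + 1) ≤ w n

theorem Levels.fin_lt {lev : α → ℕ} {w : ℕ → ℕ} (h : Levels lev w) (n : ℕ) :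
    {a | lev a < n}.Finite := by
  have : {a | lev a < n} = ⋃ m ∈ Set.Iio n, {a | lev a = m} := by
    ext a; simp only [mem_ofPred_eq, mem_Iio, mem_iUnion, exists_prop, exists_eq_right']
  rw [this]
  exact (Set.finite_Iio n).biUnion fun m _ => h.fin m

theorem Levels.fin_le {lev : α → ℕ} {w : ℕ → ℕ} (h : Levels lev w) (n : ℕ) :
    {a | lev a ≤ n}.Finite :=
  (h.fin_lt (n + 1)).subset fun _ ha => Nat.lt_succ_of_le ha

theorem lcnt_mono {lev : α → ℕ} {w : ℕ → ℕ} (h : Levels lev w) {A B : Set α} (hAB : A ⊆ B)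
    (n : ℕ) : lcnt lev A n ≤ lcnt lev B n :=
  Set.ncard_le_ncard (inter_subset_inter_left _ hAB) ((h.fin n).subset inter_subset_right)

theorem lcnt_union_le (lev : α → ℕ) (A B : Set α) (n : ℕ) :
    lcnt lev (A ∪ B) n ≤ lcnt lev A n + lcnt lev B n := by
  unfold lcnt
  rw [Set.union_inter_distrib_right]
  exact Set.ncard_union_le _ _

theorem Nul.mono {lev : α → ℕ} {w : ℕ → ℕ} (h : Levels lev w) {A B : Set α} (hB : Nul lev w B)
    (hAB : A ⊆ B) : Nul lev w A := fun j =>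
  (hB j).mono fun n hn => (Nat.mul_le_mul_left j (lcnt_mono h hAB n)).trans hn

theorem nul_empty (lev : α → ℕ) (w : ℕ → ℕ) : Nul lev w (∅ : Set α) := fun j =>
  Eventually.of_forall fun n => by simp only [lcnt, empty_inter, ncard_empty, mul_zero, zero_le]

theorem Nul.union {lev : α → ℕ} {w : ℕ → ℕ} {A B : Set α} (hA : Nul lev w A)
    (hB : Nul lev w B) : Nul lev w (A ∪ B) := fun j => by
  filter_upwards [hA (2 * j), hB (2 * j)] with n h1 h2
  have h3 := Nat.mul_le_mul_left (2 * j) (lcnt_union_le lev A B n)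
  rw [mul_add] at h3
  linarith

end Vale.Agent.P068
end
end

section

section

/-!
# P068: the fine structure inside a class of sets modulo negligible sets
-/

open Set Filter

namespace Vale.Agent.P068

variable {α : Type*} {lev : α → ℕ} {w : ℕ → ℕ}

/-- number of elements of `Y` of level at most `k` -/
noncomputable def cnt (lev : α → ℕ) (Y : Set α) (k : ℕ) : ℕ := (Y ∩ {a | lev a ≤ k}).ncard

/-- the excess of `Y` over `B` up to level `k` -/
noncomputable def dd (lev : α → ℕ) (B Y : Set α) (k : ℕ) : ℤ :=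
  (cnt lev Y k : ℤ) - (cnt lev B k : ℤ)

/-- threshold -/
def th (w : ℕ → ℕ) (j k : ℕ) : ℤ := if k ≤ j then 0 else (w k : ℤ)

/-- at precision `j` the set `Y` is at least `t` larger than `B` -/
def SS (lev : α → ℕ) (w : ℕ → ℕ) (B : Set α) (j : ℕ) (t : ℤ) (Y : Set α) : Prop :=
  ∃ k, j ≤ k ∧ th w j k ≤ (j : ℤ) * (dd lev B Y k - t) ∧
    ∀ k', k < k' → -(w k' : ℤ) ≤ (j : ℤ) * (dd lev B Y k' - t)

/-- `Y` is at least `t` larger than `B` -/
def Sp (lev : α → ℕ) (w : ℕ → ℕ) (B : Set α) (t : ℤ) (Y : Set α) : Prop :=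
  ∀ᶠ j in atTop, SS lev w B j t Y

theorem cnt_mono (hL : Levels lev w) {Y Y' : Set α} (h : Y ⊆ Y') (k : ℕ) :
    cnt lev Y k ≤ cnt lev Y' k :=
  Set.ncard_le_ncard (inter_subset_inter_left _ h) ((hL.fin_le k).subset inter_subset_right)

theorem cnt_insert (hL : Levels lev w) {Y : Set α} {f : α} (hf : f ∉ Y) {k : ℕ}
    (hk : lev f ≤ k) : cnt lev (insert f Y) k = cnt lev Y k + 1 := by
  unfold cnt
  rw [Set.insert_inter_of_mem (show f ∈ {a | lev a ≤ k} from hk)]
  exact Set.ncard_insert_of_notMem (fun h => hf h.1)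
    ((hL.fin_le k).subset inter_subset_right)

theorem cnt_le (Z : Set α) (k : ℕ) :
    cnt lev Z k ≤ {a | lev a < k}.ncard + lcnt lev Z k ∨ ¬ {a | lev a < k}.Finite := by
  by_cases hf : {a | lev a < k}.Finite
  · left
    have h1 : Z ∩ {a | lev a ≤ k} ⊆ (Z ∩ {a | lev a < k}) ∪ (Z ∩ {a | lev a = k}) := by
      rintro a ⟨ha, hk⟩
      rcases lt_or_eq_of_le (show lev a ≤ k from hk) with h | h
      · exact Or.inl ⟨ha, h⟩
      · exact Or.inr ⟨ha, h⟩
    have h2 : Z ∩ {a | lev a ≤ k} = (Z ∩ {a | lev a < k}) ∪ (Z ∩ {a | lev a = k}) := by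
      refine h1.antisymm ?_
      rintro a (⟨ha, hk⟩ | ⟨ha, hk⟩)
      · exact ⟨ha, le_of_lt (show lev a < k from hk)⟩
      · exact ⟨ha, le_of_eq (show lev a = k from hk)⟩
    unfold cnt lcnt
    rw [h2]
    refine (Set.ncard_union_le _ _).trans (Nat.add_le_add_right ?_ _)
    exact Set.ncard_le_ncard inter_subset_right hf
  · exact Or.inr hf

theorem cnt_le' (hL : Levels lev w) (Z : Set α) (k : ℕ) :
    cnt lev Z k ≤ {a | lev a < k}.ncard + lcnt lev Z k :=
  (cnt_le Z k).resolve_right (fun h => h (hL.fin_lt k))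

theorem lcnt_le_cnt (hL : Levels lev w) (Z : Set α) (k : ℕ) : lcnt lev Z k ≤ cnt lev Z k := by
  refine Set.ncard_le_ncard ?_ ((hL.fin_le k).subset inter_subset_right)
  rintro a ⟨ha, hk⟩
  exact ⟨ha, le_of_eq (show lev a = k from hk)⟩

theorem Nul.cnt (hL : Levels lev w) {Z : Set α} (hZ : Nul lev w Z) (j C : ℕ) :
    ∀ᶠ k in atTop, j * (cnt lev Z k + C) ≤ w k := by
  filter_upwards [hL.growth (2 * j * (C + 1)), hZ (2 * j)] with k h1 h2
  have h3 := cnt_le' hL Z k
  set g := {a | lev a < k}.ncard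
  have h4 : j * (Vale.Agent.P068.cnt lev Z k + C) ≤ j * ((C + 1) * (g + 1)) + j * lcnt lev Z k := by
    rw [← mul_add]
    apply Nat.mul_le_mul_left
    nlinarith only [h3]
  have h5 : 2 * (j * ((C + 1) * (g + 1))) ≤ w k := by
    calc 2 * (j * ((C + 1) * (g + 1))) = 2 * j * (C + 1) * (g + 1) := by ring
      _ ≤ w k := h1
  have h6 : 2 * (j * lcnt lev Z k) ≤ w k := by
    calc 2 * (j * lcnt lev Z k) = 2 * j * lcnt lev Z k := by ring
      _ ≤ w k := h2
  omega

theorem dd_mono (hL : Levels lev w) (B : Set α) {Y Y' : Set α} (h : Y ⊆ Y') (k : ℕ) :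
    dd lev B Y k ≤ dd lev B Y' k := by
  have := cnt_mono hL h k
  unfold dd
  omega

theorem dd_eq (hL : Levels lev w) (B X : Set α) (k : ℕ) :
    dd lev B X k = (cnt lev (X \ B) k : ℤ) - (cnt lev (B \ X) k : ℤ) := by
  have key : ∀ U V : Set α, cnt lev U k = cnt lev (U ∩ V) k + cnt lev (U \ V) k := by
    intro U V
    have hd : Disjoint (U ∩ V ∩ {a | lev a ≤ k}) (U \ V ∩ {a | lev a ≤ k}) := by
      rw [Set.disjoint_left]
      rintro a ⟨⟨-, h1⟩, -⟩ ⟨⟨-, h2⟩, -⟩
      exact h2 h1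
    unfold cnt
    rw [← Set.ncard_union_eq hd ((hL.fin_le k).subset inter_subset_right)
      ((hL.fin_le k).subset inter_subset_right)]
    congr 1
    ext a
    simp only [mem_inter_iff, mem_union, Set.mem_sdiff]
    (clear * -; tauto)
  have h1 := key X B
  have h2 := key B X
  rw [Set.inter_comm] at h2
  unfold dd
  omega

theorem SS.mono (hL : Levels lev w) {B : Set α} {j : ℕ} {t : ℤ} {Y Y' : Set α} (hY : Y ⊆ Y')
    (h : SS lev w B j t Y) : SS lev w B j t Y' := by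
  obtain ⟨k, h1, h2, h3⟩ := h
  have hj : (0 : ℤ) ≤ (j : ℤ) := by positivity
  refine ⟨k, h1, h2.trans ?_, fun k' hk' => (h3 k' hk').trans ?_⟩
  · exact mul_le_mul_of_nonneg_left (sub_le_sub_right (dd_mono hL B hY k) _) hj
  · exact mul_le_mul_of_nonneg_left (sub_le_sub_right (dd_mono hL B hY k') _) hj

theorem SS.anti {B : Set α} {j : ℕ} {t t' : ℤ} {Y : Set α} (ht : t' ≤ t)
    (h : SS lev w B j t Y) : SS lev w B j t' Y := by
  obtain ⟨k, h1, h2, h3⟩ := h
  have hj : (0 : ℤ) ≤ (j : ℤ) := by positivity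
  refine ⟨k, h1, h2.trans ?_, fun k' hk' => (h3 k' hk').trans ?_⟩
  · exact mul_le_mul_of_nonneg_left (sub_le_sub_left ht _) hj
  · exact mul_le_mul_of_nonneg_left (sub_le_sub_left ht _) hj

theorem dd_insert (hL : Levels lev w) (B : Set α) {Y : Set α} {f : α} (hf : f ∉ Y) {k : ℕ}
    (hk : lev f ≤ k) : dd lev B (insert f Y) k = dd lev B Y k + 1 := by
  unfold dd
  rw [cnt_insert hL hf hk]
  push_cast
  ring

theorem SS.insert_iff (hL : Levels lev w) {B : Set α} {j : ℕ} {t : ℤ} {Y : Set α} {f : α}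
    (hf : f ∉ Y) (hj : lev f ≤ j) : SS lev w B j (t + 1) (insert f Y) ↔ SS lev w B j t Y := by
  unfold SS
  constructor
  · rintro ⟨k, h1, h2, h3⟩
    refine ⟨k, h1, ?_, fun k' hk' => ?_⟩
    · rw [dd_insert hL B hf (hj.trans h1)] at h2
      rwa [add_sub_add_right_eq_sub] at h2
    · have := h3 k' hk'
      rw [dd_insert hL B hf (hj.trans (h1.trans hk'.le))] at this
      rwa [add_sub_add_right_eq_sub] at this
  · rintro ⟨k, h1, h2, h3⟩
    refine ⟨k, h1, ?_, fun k' hk' => ?_⟩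
    · rw [dd_insert hL B hf (hj.trans h1), add_sub_add_right_eq_sub]
      exact h2
    · rw [dd_insert hL B hf (hj.trans (h1.trans hk'.le)), add_sub_add_right_eq_sub]
      exact h3 k' hk'

theorem Sp.mono (hL : Levels lev w) {B : Set α} {t : ℤ} {Y Y' : Set α} (hY : Y ⊆ Y')
    (h : Sp lev w B t Y) : Sp lev w B t Y' :=
  Filter.Eventually.mono h fun _ hj => hj.mono hL hY

theorem Sp.anti {B : Set α} {t t' : ℤ} {Y : Set α} (ht : t' ≤ t)
    (h : Sp lev w B t Y) : Sp lev w B t' Y :=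
  Filter.Eventually.mono h fun _ hj => hj.anti ht

theorem Sp.insert_iff (hL : Levels lev w) {B : Set α} {t : ℤ} {Y : Set α} {f : α}
    (hf : f ∉ Y) : Sp lev w B (t + 1) (insert f Y) ↔ Sp lev w B t Y := by
  unfold Sp
  refine eventually_congr ?_
  filter_upwards [eventually_ge_atTop (lev f)] with j hj
  exact SS.insert_iff hL hf hj

theorem sp_self (B : Set α) : Sp lev w B 0 B := by
  refine Eventually.of_forall fun j => ⟨j, le_rfl, ?_, fun k' _ => ?_⟩
  · simp only [th, Std.le_refl, ↓reduceIte, dd, sub_self, mul_zero]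
  · simp only [dd, sub_self, mul_zero, Left.neg_nonpos_iff, Nat.cast_nonneg]

theorem not_sp_empty (B : Set α) : ¬ Sp lev w B 1 ∅ := by
  intro h
  obtain ⟨j, ⟨k, h1, h2, h3⟩, hj⟩ := (h.and (eventually_ge_atTop 1)).exists
  have h4 : dd lev B ∅ k ≤ 0 := by
    unfold dd cnt
    simp only [empty_inter, ncard_empty, CharP.cast_eq_zero, zero_sub, Left.neg_nonpos_iff, Nat.cast_nonneg]
  have h5 : (0 : ℤ) ≤ th w j k := by
    unfold th
    split_ifs
    · exact le_rfl
    · (clear * -; positivity)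
  have h6 : (1 : ℤ) ≤ (j : ℤ) := by exact_mod_cast hj
  nlinarith only [hj, h2, h5, h4]

theorem Sp.near (hL : Levels lev w) {B X : Set α} {t : ℤ} (hX : Nul lev w (X \ B))
    (h : Sp lev w B t X) : Nul lev w (B \ X) := by
  intro J
  obtain ⟨j, ⟨k, h1, h2, h3⟩, hj⟩ := (h.and (eventually_ge_atTop (4 * (J + 1)))).exists
  have e1 := Nul.cnt hL hX (4 * j) (t.natAbs + 1)
  obtain ⟨K, hK⟩ := eventually_atTop.mp (e1.and (eventually_gt_atTop j))
  have hj1 : 1 ≤ j := by omega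
  have hkK : k < K := by
    by_contra hcon
    obtain ⟨h4, h5⟩ := hK k (not_lt.mp hcon)
    have h6 : th w j k = (w k : ℤ) := by
      unfold th
      rw [if_neg (not_le.mpr h5)]
    rw [h6, dd_eq hL] at h2
    have h7 : ((4 * j * (cnt lev (X \ B) k + (t.natAbs + 1)) : ℕ) : ℤ) ≤ (w k : ℤ) := by
      exact_mod_cast h4
    push_cast at h7
    have h8 : -t ≤ |t| := neg_le_abs t
    have h9 : (0 : ℤ) ≤ (cnt lev (B \ X) k : ℤ) := by (clear * -; positivity)
    have h10 : (1 : ℤ) ≤ (j : ℤ) := by exact_mod_cast hj1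
    have h11 : (j : ℤ) * ((cnt lev (X \ B) k : ℤ) - (cnt lev (B \ X) k : ℤ) - t) ≤
        (j : ℤ) * ((cnt lev (X \ B) k : ℤ) + |t|) := by
      apply mul_le_mul_of_nonneg_left _ (by linarith only [])
      linarith only [h8]
    have h12 : (0 : ℤ) ≤ (j : ℤ) * ((cnt lev (X \ B) k : ℤ) + |t|) := by (clear * - hj1; positivity)
    linarith
  filter_upwards [eventually_ge_atTop K] with n hn
  obtain ⟨h4, h5⟩ := hK n hn
  have h6 := h3 n (lt_of_lt_of_le hkK hn)
  rw [dd_eq hL] at h6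
  have h7 : ((4 * j * (cnt lev (X \ B) n + (t.natAbs + 1)) : ℕ) : ℤ) ≤ (w n : ℤ) := by
    exact_mod_cast h4
  push_cast at h7
  have h8 : -t ≤ |t| := neg_le_abs t
  have h9 := lcnt_le_cnt hL (B \ X) n
  have h9' : (lcnt lev (B \ X) n : ℤ) ≤ (cnt lev (B \ X) n : ℤ) := by exact_mod_cast h9
  have h10 : (1 : ℤ) ≤ (j : ℤ) := by exact_mod_cast hj1
  have h13 : (j : ℤ) * (cnt lev (B \ X) n : ℤ) ≤
      (w n : ℤ) + (j : ℤ) * ((cnt lev (X \ B) n : ℤ) + |t|) := by
    have : (j : ℤ) * (-t) ≤ (j : ℤ) * |t| := mul_le_mul_of_nonneg_left h8 (by linarith only [])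
    nlinarith only [h6, this]
  have h14 : (4 : ℤ) * ((J : ℤ) + 1) ≤ (j : ℤ) := by exact_mod_cast hj
  have h15 : (0 : ℤ) ≤ (cnt lev (B \ X) n : ℤ) := by (clear * -; positivity)
  have h16 : 4 * ((J : ℤ) * (cnt lev (B \ X) n : ℤ)) ≤ (j : ℤ) * (cnt lev (B \ X) n : ℤ) := by
    nlinarith only [hj]
  have h17 : (0 : ℤ) ≤ (J : ℤ) := by (clear * -; positivity)
  have h18 : (J : ℤ) * (lcnt lev (B \ X) n : ℤ) ≤ (J : ℤ) * (cnt lev (B \ X) n : ℤ) :=
    mul_le_mul_of_nonneg_left h9' h17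
  have h19 : (J : ℤ) * (lcnt lev (B \ X) n : ℤ) ≤ (w n : ℤ) := by linarith
  exact_mod_cast h19

theorem chain_finite {c : Set (Set α)} (hc : IsChain (· ⊆ ·) c) (hne : c.Nonempty)
    {G : Set α} (hG : G.Finite) : ∃ Y ∈ c, ∀ a ∈ G, a ∈ Y → a ∈ ⋂₀ c := by
  induction G, hG using Set.Finite.induction_on with
  | empty =>
    obtain ⟨Y, hY⟩ := hne
    exact ⟨Y, hY, by simp only [mem_empty_iff_false, mem_sInter, IsEmpty.forall_iff, implies_true]⟩
  | @insert g G _ _ ih =>
    obtain ⟨Y, hY, h⟩ := ih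
    by_cases hg : g ∈ ⋂₀ c
    · refine ⟨Y, hY, ?_⟩
      rintro a (rfl | ha) haY
      · exact hg
      · exact h a ha haY
    · obtain ⟨Z, hZ, hgZ⟩ : ∃ Z ∈ c, g ∉ Z := by
        by_contra hcon
        refine hg fun Z hZ => ?_
        by_contra hgZ
        exact hcon ⟨Z, hZ, hgZ⟩
      rcases hc.total hY hZ with hYZ | hZY
      · refine ⟨Y, hY, ?_⟩
        rintro a (rfl | ha) haY
        · exact absurd (hYZ haY) hgZ
        · exact h a ha haY
      · refine ⟨Z, hZ, ?_⟩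
        rintro a (rfl | ha) haZ
        · exact absurd haZ hgZ
        · exact h a ha (hZY haZ)

theorem dd_diff_of_lt {B Y : Set α} {y : α} {k : ℕ} (hk : k < lev y) :
    dd lev B (Y \ {y}) k = dd lev B Y k := by
  unfold dd cnt
  have : (Y \ {y}) ∩ {a | lev a ≤ k} = Y ∩ {a | lev a ≤ k} := by
    ext a
    simp only [mem_inter_iff, Set.mem_sdiff, mem_singleton_iff, mem_ofPred_eq]
    constructor
    · rintro ⟨⟨h1, -⟩, h2⟩
      exact ⟨h1, h2⟩
    · rintro ⟨h1, h2⟩
      refine ⟨⟨h1, ?_⟩, h2⟩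
      rintro rfl
      omega
  rw [this]

theorem dd_diff_ge (hL : Levels lev w) {B Y : Set α} {y : α} (hy : y ∈ Y) (k : ℕ) :
    dd lev B Y k - 1 ≤ dd lev B (Y \ {y}) k := by
  rcases lt_or_ge k (lev y) with h | h
  · rw [dd_diff_of_lt h]
    omega
  · have h1 := dd_insert hL B (Y := Y \ {y}) (f := y) (fun hh => hh.2 rfl) h
    rw [Set.insert_sdiff_singleton, Set.insert_eq_of_mem hy] at h1
    omega

theorem finite_between (hL : Levels lev w) {B I : Set α} (hI : ¬ Sp lev w B 1 I) {R : Set α}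
    (hR : R.Finite) : Sp lev w B 1 (I ∪ R) →
      ∃ Y, I ⊆ Y ∧ Y ⊆ I ∪ R ∧ Sp lev w B 0 Y ∧ ¬ Sp lev w B 1 Y := by
  induction R, hR using Set.Finite.induction_on with
  | empty =>
    intro h
    rw [Set.union_empty] at h
    exact absurd h hI
  | @insert r R _ _ ih =>
    intro h
    by_cases h1 : Sp lev w B 1 (I ∪ R)
    · obtain ⟨Y, h2, h3, h4, h5⟩ := ih h1
      exact ⟨Y, h2, h3.trans (union_subset_union_right _ (subset_insert _ _)), h4, h5⟩
    · refine ⟨I ∪ R, subset_union_left, union_subset_union_right _ (subset_insert _ _), ?_, h1⟩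
      by_cases hr : r ∈ I ∪ R
      · rw [Set.union_insert, Set.insert_eq_of_mem hr] at h
        exact absurd h h1
      · rw [Set.union_insert] at h
        exact (Sp.insert_iff hL (t := 0) hr).mp h

theorem exists_between (hL : Levels lev w) {B X I : Set α} (hX : Nul lev w (X \ B))
    (hs : Sp lev w B 0 X) (hIX : I ⊆ X) (hI : ¬ Sp lev w B 1 I) :
    ∃ Y, I ⊆ Y ∧ Y ⊆ X ∧ Sp lev w B 0 Y ∧ ¬ Sp lev w B 1 Y := by
  obtain ⟨j₀, hj₀⟩ := eventually_atTop.mp (hs.and (eventually_ge_atTop 1))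
  obtain ⟨Y, hY⟩ := zorn_superset {Y : Set α | I ⊆ Y ∧ Y ⊆ X ∧ ∀ j, j₀ ≤ j → SS lev w B j 0 Y} (by
    intro c hcS hc
    rcases c.eq_empty_or_nonempty with rfl | hne
    · exact ⟨X, ⟨hIX, subset_rfl, fun j hj => (hj₀ j hj).1⟩, by simp⟩
    refine ⟨⋂₀ c, ⟨subset_sInter fun Y hY => (hcS hY).1, ?_, ?_⟩, fun s hs => sInter_subset_of_mem hs⟩
    · obtain ⟨Y, hY⟩ := hne
      exact (sInter_subset_of_mem hY).trans (hcS hY).2.1
    intro j hj
    have hj1 := (hj₀ j hj).2
    obtain ⟨K, hK⟩ := eventually_atTop.mp ((Nul.cnt hL hX (2 * j) 1).and (eventually_gt_atTop j))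
    have wit : ∀ Y ∈ c, ∃ k < K, j ≤ k ∧ th w j k ≤ (j : ℤ) * (dd lev B Y k - 0) ∧
        ∀ k', k < k' → -(w k' : ℤ) ≤ (j : ℤ) * (dd lev B Y k' - 0) := by
      intro Y hY
      obtain ⟨k, h1, h2, h3⟩ := (hcS hY).2.2 j hj
      refine ⟨k, ?_, h1, h2, h3⟩
      by_contra hcon
      obtain ⟨h4, h5⟩ := hK k (not_lt.mp hcon)
      have h6 : th w j k = (w k : ℤ) := by
        unfold th
        rw [if_neg (not_le.mpr h5)]
      have h7 := dd_mono hL B (hcS hY).2.1 k
      rw [dd_eq hL B X] at h7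
      rw [h6] at h2
      have h8 : ((2 * j * (cnt lev (X \ B) k + 1) : ℕ) : ℤ) ≤ (w k : ℤ) := by exact_mod_cast h4
      push_cast at h8
      have h9 : (0 : ℤ) ≤ (cnt lev (B \ X) k : ℤ) := by (clear * -; positivity)
      have h10 : (1 : ℤ) ≤ (j : ℤ) := by exact_mod_cast hj1
      have h11 : (j : ℤ) * (dd lev B Y k - 0) ≤ (j : ℤ) * (cnt lev (X \ B) k : ℤ) :=
        mul_le_mul_of_nonneg_left (by linarith only [h7]) (by linarith only [])
      have h12 : (0 : ℤ) ≤ (j : ℤ) * (cnt lev (X \ B) k : ℤ) := by (clear * - hj1; positivity)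
      nlinarith only [hj1, h2, h4, h11]
    by_contra hcon
    have bad : ∀ k, j ≤ k → ∃ m, ¬ (th w j k ≤ (j : ℤ) * (dd lev B (⋂₀ c) k - 0)) ∨
        (k < m ∧ ¬ (-(w m : ℤ) ≤ (j : ℤ) * (dd lev B (⋂₀ c) m - 0))) := by
      intro k hk
      by_contra hno
      refine hcon ⟨k, hk, ?_, ?_⟩
      · by_contra h1
        exact hno ⟨k, Or.inl h1⟩
      · intro m hm
        by_contra h1
        exact hno ⟨m, Or.inr ⟨hm, h1⟩⟩
    have bad' : ∀ k, ∃ m, j ≤ k → ¬ (th w j k ≤ (j : ℤ) * (dd lev B (⋂₀ c) k - 0)) ∨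
        (k < m ∧ ¬ (-(w m : ℤ) ≤ (j : ℤ) * (dd lev B (⋂₀ c) m - 0))) := by
      intro k
      by_cases hk : j ≤ k
      · obtain ⟨m, hm⟩ := bad k hk
        exact ⟨m, fun _ => hm⟩
      · exact ⟨0, fun h => absurd h hk⟩
    choose m hm using bad'
    let L := K + (Finset.range K).sup m
    obtain ⟨Y, hY, hYL⟩ := chain_finite hc hne (hL.fin_le L)
    have hdd : ∀ k ≤ L, dd lev B Y k = dd lev B (⋂₀ c) k := by
      intro k hk
      have : Y ∩ {a | lev a ≤ k} = ⋂₀ c ∩ {a | lev a ≤ k} := by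
        apply Set.Subset.antisymm
        · rintro a ⟨ha, hak⟩
          exact ⟨hYL a (le_trans (show lev a ≤ k from hak) hk) ha, hak⟩
        · rintro a ⟨ha, hak⟩
          exact ⟨ha Y hY, hak⟩
      unfold dd cnt
      rw [this]
    obtain ⟨k, hkK, h1, h2, h3⟩ := wit Y hY
    rcases hm k h1 with h4 | ⟨h4, h5⟩
    · rw [hdd k (by omega)] at h2
      exact h4 h2
    · have h6 : m k ≤ (Finset.range K).sup m := Finset.le_sup (Finset.mem_range.mpr hkK)
      have h7 := h3 (m k) h4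
      rw [hdd (m k) (by omega)] at h7
      exact h5 h7)
  obtain ⟨⟨hIY, hYX, hYj⟩, hmin⟩ := hY
  have hSp : Sp lev w B 0 Y := by
    filter_upwards [eventually_ge_atTop j₀] with j hj
    exact hYj j hj
  by_cases h1 : Sp lev w B 1 Y
  swap
  · exact ⟨Y, hIY, hYX, hSp, h1⟩
  by_cases hfin : (Y \ I).Finite
  · have h2 : I ∪ (Y \ I) = Y := Set.union_sdiff_cancel hIY
    obtain ⟨Z, h3, h4, h5, h6⟩ := finite_between hL hI hfin (by rwa [h2])
    rw [h2] at h4
    exact ⟨Z, h3, h4.trans hYX, h5, h6⟩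
  exfalso
  have hYB : Nul lev w (Y \ B) := hX.mono hL (sdiff_subset_sdiff_left hYX)
  have hBY : Nul lev w (B \ Y) := h1.near hL hYB
  obtain ⟨j₁, hj₁⟩ := eventually_atTop.mp h1
  -- a level beyond which one element may be removed
  have hlev : ∀ j, ∃ L, j₀ ≤ j → ∀ y ∈ Y, L ≤ lev y → SS lev w B j 0 (Y \ {y}) := by
    intro j
    by_cases hj : j₀ ≤ j
    swap
    · exact ⟨0, fun h => absurd h hj⟩
    obtain ⟨k, h2, h3, h4⟩ := hYj j hj
    obtain ⟨N, hN⟩ := eventually_atTop.mp (Nul.cnt hL hBY j 1)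
    refine ⟨N + k + 1, fun _ y hy hly => ⟨k, h2, ?_, ?_⟩⟩
    · rw [dd_diff_of_lt (by omega)]
      exact h3
    · intro k' hk'
      rcases lt_or_ge k' (lev y) with h5 | h5
      · rw [dd_diff_of_lt h5]
        exact h4 k' hk'
      · have h6 := hN k' (by omega)
        have h7 := dd_diff_ge hL (B := B) hy k'
        rw [dd_eq hL B Y] at h7
        have h8 : ((j * (cnt lev (B \ Y) k' + 1) : ℕ) : ℤ) ≤ (w k' : ℤ) := by exact_mod_cast h6
        push_cast at h8
        have h9 : (0 : ℤ) ≤ (cnt lev (Y \ B) k' : ℤ) := by (clear * -; positivity)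
        have h10 : (0 : ℤ) ≤ (j : ℤ) := by (clear * -; positivity)
        have h11 : (j : ℤ) * (-((cnt lev (B \ Y) k' : ℤ) + 1)) ≤
            (j : ℤ) * (dd lev B (Y \ {y}) k' - 0) :=
          mul_le_mul_of_nonneg_left (by linarith only [h7]) h10
        nlinarith only [h6, h11]
  choose L hLs using hlev
  let M := (Finset.range j₁).sup L
  obtain ⟨y, ⟨hyY, hyI⟩, hyM⟩ : ∃ y ∈ Y \ I, M ≤ lev y := by
    by_contra hcon
    refine hfin ((hL.fin_lt M).subset fun y hy => ?_)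
    by_contra hM
    exact hcon ⟨y, hy, not_lt.mp hM⟩
  have hmem : Y \ {y} ∈ {Y : Set α | I ⊆ Y ∧ Y ⊆ X ∧ ∀ j, j₀ ≤ j → SS lev w B j 0 Y} := by
    refine ⟨?_, sdiff_subset.trans hYX, ?_⟩
    · intro a ha
      refine ⟨hIY ha, ?_⟩
      rintro rfl
      exact hyI ha
    · intro j hj
      rcases lt_or_ge j j₁ with h2 | h2
      · exact hLs j hj y hyY ((Finset.le_sup (Finset.mem_range.mpr h2)).trans hyM)
      · obtain ⟨k, h3, h4, h5⟩ := hj₁ j h2
        have hj0 : (0 : ℤ) ≤ (j : ℤ) := by (clear * -; positivity)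
        refine ⟨k, h3, h4.trans ?_, fun k' hk' => (h5 k' hk').trans ?_⟩
        · exact mul_le_mul_of_nonneg_left (by have := dd_diff_ge hL (B := B) hyY k; linarith only [this]) hj0
        · exact mul_le_mul_of_nonneg_left (by have := dd_diff_ge hL (B := B) hyY k'; linarith only [this]) hj0
  exact (hmin hmem sdiff_subset hyY).2 rfl

theorem mul_div_add_one_le {J j W : ℕ} (hj : 4 * J + 1 ≤ j) (hW : 2 * J ≤ W) :
    J * (2 * W / j + 1) ≤ W := by
  have h1 : j * (2 * W / j) ≤ 2 * W := Nat.mul_div_le _ _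
  nlinarith only [hj, h1, hW]

theorem le_mul_div_add_one {j W : ℕ} (hj : 1 ≤ j) : 2 * W ≤ j * (2 * W / j + 1) := by
  have h1 := Nat.div_add_mod (2 * W) j
  have h2 := Nat.mod_lt (2 * W) (show 0 < j by omega)
  linarith

theorem exists_add (hL : Levels lev w) {B X A : Set α} (hX : Nul lev w (B \ X))
    (hA : ¬ Nul lev w A) (hd : Disjoint A X) :
    ∃ A', A' ⊆ A ∧ Nul lev w A' ∧ Sp lev w B 0 (X ∪ A') := by
  obtain ⟨J, hJ⟩ : ∃ J, ∃ᶠ n in atTop, ¬ (J * lcnt lev A n ≤ w n) := by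
    by_contra hcon
    refine hA fun J => ?_
    by_contra h
    exact hcon ⟨J, Filter.not_eventually.mp h⟩
  have hw : ∀ C : ℕ, ∀ᶠ n in atTop, C ≤ w n := by
    intro C
    filter_upwards [hL.growth C] with n hn
    nlinarith
  obtain ⟨φ, hφ, hP⟩ := Filter.extraction_forall_of_frequently
    (P := fun j n => ¬ (J * lcnt lev A n ≤ w n) ∧ 2 * J ≤ w n ∧
      ∀ n', n ≤ n' → j * cnt lev (B \ X) n' ≤ w n') (fun j => by
      refine hJ.and_eventually ?_
      refine (hw (2 * J)).and ?_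
      have h1 := Nul.cnt hL hX j 0
      obtain ⟨N, hN⟩ := eventually_atTop.mp h1
      filter_upwards [eventually_ge_atTop N] with n hn n' hn'
      have := hN n' (hn.trans hn')
      simpa only [ge_iff_le, add_zero] using this)
  have hT : ∀ j, ∃ T : Set α, T ⊆ A ∩ {a | lev a = φ j} ∧ T.ncard ≤ 2 * w (φ j) / j + 1 ∧
      (4 * J + 1 ≤ j → T.ncard = 2 * w (φ j) / j + 1) := by
    intro j
    by_cases hj : 4 * J + 1 ≤ j
    · obtain ⟨h1, h2, h3⟩ := hP j
      have h4 : 2 * w (φ j) / j + 1 ≤ (A ∩ {a | lev a = φ j}).ncard := by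
        by_contra hcon
        apply h1
        have h5 : lcnt lev A (φ j) ≤ 2 * w (φ j) / j + 1 := by
          unfold lcnt
          omega
        exact (Nat.mul_le_mul_left J h5).trans (mul_div_add_one_le hj h2)
      obtain ⟨T, hT1, hT2⟩ := Set.exists_subset_card_eq h4
      exact ⟨T, hT1, hT2.le, fun _ => hT2⟩
    · exact ⟨∅, empty_subset _, by simp only [ncard_empty, le_add_iff_nonneg_left, zero_le], fun h => absurd h hj⟩
  choose T hTs hTle hTeq using hT
  have hfib : ∀ j, (⋃ i, T i) ∩ {a | lev a = φ j} = T j := by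
    intro j
    apply Set.Subset.antisymm
    · rintro a ⟨ha, haj⟩
      obtain ⟨i, hi⟩ := mem_iUnion.mp ha
      have h1 : lev a = φ i := (hTs i hi).2
      have h2 : lev a = φ j := haj
      have h3 : i = j := hφ.injective (h1.symm.trans h2)
      rwa [h3] at hi
    · intro a ha
      exact ⟨mem_iUnion.mpr ⟨j, ha⟩, (hTs j ha).2⟩
  refine ⟨⋃ i, T i, iUnion_subset fun i => (hTs i).trans inter_subset_left, ?_, ?_⟩
  · intro J'
    filter_upwards [hw (2 * J'), eventually_ge_atTop (φ (4 * J' + 1))] with n h1 h2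
    by_cases hn : ∃ j, φ j = n
    · obtain ⟨j, rfl⟩ := hn
      have h3 : 4 * J' + 1 ≤ j := hφ.le_iff_le.mp h2
      unfold lcnt
      rw [hfib j]
      exact (Nat.mul_le_mul_left J' (hTle j)).trans (mul_div_add_one_le h3 h1)
    · have h3 : (⋃ i, T i) ∩ {a | lev a = n} = ∅ := by
        rw [Set.eq_empty_iff_forall_notMem]
        rintro a ⟨ha, han⟩
        obtain ⟨i, hi⟩ := mem_iUnion.mp ha
        exact hn ⟨i, ((hTs i hi).2 : lev a = φ i).symm.trans han⟩
      unfold lcnt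
      rw [h3]
      simp
  · filter_upwards [eventually_ge_atTop (4 * J + 1)] with j hj
    obtain ⟨-, -, h3⟩ := hP j
    have hj1 : 1 ≤ j := by omega
    have hj0 : (0 : ℤ) ≤ (j : ℤ) := by (clear * - hj1; positivity)
    have hddX : ∀ k', φ j ≤ k' → -(w k' : ℤ) ≤ (j : ℤ) * dd lev B X k' := by
      intro k' hk'
      have h4 : ((j * cnt lev (B \ X) k' : ℕ) : ℤ) ≤ (w k' : ℤ) := by exact_mod_cast h3 k' hk'
      push_cast at h4
      rw [dd_eq hL]
      have h5 : (0 : ℤ) ≤ (j : ℤ) * (cnt lev (X \ B) k' : ℤ) := by (clear * - hj1; positivity)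
      linarith only [h4, h5]
    refine ⟨φ j, hφ.id_le j, ?_, ?_⟩
    · have h4 : cnt lev X (φ j) + (T j).ncard ≤ cnt lev (X ∪ ⋃ i, T i) (φ j) := by
        unfold cnt
        rw [← Set.ncard_union_eq ?_ ((hL.fin_le _).subset inter_subset_right)
          ((hL.fin _).subset ((hTs j).trans inter_subset_right))]
        · refine Set.ncard_le_ncard ?_ ((hL.fin_le _).subset inter_subset_right)
          rintro a (⟨h5, h6⟩ | h5)
          · exact ⟨Or.inl h5, h6⟩
          · exact ⟨Or.inr (mem_iUnion.mpr ⟨j, h5⟩), le_of_eq ((hTs j h5).2 : lev a = φ j)⟩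
        · rw [Set.disjoint_left]
          rintro a ⟨h5, -⟩ h6
          exact Set.disjoint_left.mp hd (hTs j h6).1 h5
      have h5 := hddX (φ j) le_rfl
      have h6 : dd lev B X (φ j) + ((T j).ncard : ℤ) ≤ dd lev B (X ∪ ⋃ i, T i) (φ j) := by
        unfold dd
        omega
      have h7 : 2 * w (φ j) ≤ j * (T j).ncard := by
        rw [hTeq j hj]
        exact le_mul_div_add_one hj1
      have h8 : (2 : ℤ) * (w (φ j) : ℤ) ≤ (j : ℤ) * ((T j).ncard : ℤ) := by exact_mod_cast h7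
      have h9 : (j : ℤ) * (dd lev B X (φ j) + ((T j).ncard : ℤ)) ≤
          (j : ℤ) * (dd lev B (X ∪ ⋃ i, T i) (φ j) - 0) :=
        mul_le_mul_of_nonneg_left (by linarith only [h6]) hj0
      have h10 : th w j (φ j) ≤ (w (φ j) : ℤ) := by
        unfold th
        split_ifs
        · (clear * -; positivity)
        · exact le_rfl
      linarith
    · intro k' hk'
      refine (hddX k' hk'.le).trans ?_
      refine mul_le_mul_of_nonneg_left ?_ hj0
      have := dd_mono hL B (subset_union_left (s := X) (t := ⋃ i, T i)) k'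
      linarith only [this]

/-- bases generated by `F` -/
def ZBas (lev : α → ℕ) (w : ℕ → ℕ) (F : Set (Set α)) (D : Set α) : Prop :=
  ∃ B ∈ F, Nul lev w (D \ B) ∧ Sp lev w B 0 D ∧ ¬ Sp lev w B 1 D

theorem ZBas.antichain (hL : Levels lev w) {F : Set (Set α)}
    (anti : ∀ A ∈ F, ∀ B ∈ F, Nul lev w (A \ B) → A = B) {D D' : Set α}
    (hD : ZBas lev w F D) (hD' : ZBas lev w F D') (h : D ⊆ D') : D = D' := by
  obtain ⟨B, hB, h1, h2, h3⟩ := hD
  obtain ⟨B', hB', h1', h2', h3'⟩ := hD'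
  have : B = B' := by
    refine anti B hB B' hB' ?_
    refine ((h2.near hL h1).union h1').mono hL ?_
    intro x hx
    by_cases hxD : x ∈ D
    · exact Or.inr ⟨h hxD, hx.2⟩
    · exact Or.inl ⟨hx.1, hxD⟩
  subst this
  refine h.antisymm ?_
  intro x hx
  by_contra hxD
  refine h3' (((Sp.insert_iff hL (t := 0) hxD).mpr h2).mono hL ?_)
  exact insert_subset hx h

theorem ZBas.exchange (hL : Levels lev w) {F : Set (Set α)} {D : Set α} (hD : ZBas lev w F D)
    {e f : α} (he : e ∈ D) (hf : f ∉ D) (hns : Nul lev w {f}) :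
    ZBas lev w F (insert f (D \ {e})) := by
  obtain ⟨B, hB, h1, h2, h3⟩ := hD
  have hf' : f ∉ D \ {e} := fun h => hf h.1
  have he' : e ∉ D \ {e} := fun h => h.2 rfl
  have hD' : insert e (D \ {e}) = D := by
    rw [Set.insert_sdiff_singleton, Set.insert_eq_of_mem he]
  refine ⟨B, hB, ?_, ?_, ?_⟩
  · refine (h1.union hns).mono hL ?_
    rintro x ⟨rfl | hx, hxB⟩
    · exact Or.inr rfl
    · exact Or.inl ⟨hx.1, hxB⟩
  · have h4 : Sp lev w B (-1) (D \ {e}) := by
      rw [← Sp.insert_iff hL he', hD']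
      simpa using h2
    have h5 := (Sp.insert_iff hL hf').mpr h4
    simpa using h5
  · intro h4
    apply h3
    have h5 : Sp lev w B 0 (D \ {e}) := (Sp.insert_iff hL (t := 0) hf').mp h4
    have h6 := (Sp.insert_iff hL he').mpr h5
    rw [hD'] at h6
    simpa using h6

theorem Nul.of_finite {A : Set α} (hA : A.Finite) : Nul lev w A := by
  obtain ⟨N, hN⟩ := (hA.image lev).bddAbove
  intro j
  filter_upwards [eventually_gt_atTop N] with n hn
  have : A ∩ {a | lev a = n} = ∅ := by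
    rw [Set.eq_empty_iff_forall_notMem]
    rintro a ⟨ha, han⟩
    have := hN (mem_image_of_mem lev ha)
    have h2 : lev a = n := han
    omega
  unfold lcnt
  rw [this]
  simp

theorem ZBas.interval (hL : Levels lev w) {F : Set (Set α)}
    (cut : ∀ I X : Set α, I ⊆ X → ∃ B ∈ F, Nul lev w (B \ I) ∨ Nul lev w (X \ B) ∨
      (Nul lev w (I \ B) ∧ Nul lev w (B \ X))) (I X : Set α) (hIX : I ⊆ X) :
    (∃ D, ZBas lev w F D ∧ D ⊆ I) ∨ (∃ D, ZBas lev w F D ∧ X ⊆ D) ∨
      ∃ D, ZBas lev w F D ∧ I ⊆ D ∧ D ⊆ X := by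
  -- a set which spans contains a base
  have below : ∀ B ∈ F, ∀ Y : Set α, Nul lev w (Y \ B) → Sp lev w B 0 Y →
      ∃ D, ZBas lev w F D ∧ D ⊆ Y := by
    intro B hB Y h1 h2
    obtain ⟨D, -, h3, h4, h5⟩ := exists_between hL h1 h2 (empty_subset Y) (not_sp_empty B)
    exact ⟨D, ⟨B, hB, h1.mono hL (sdiff_subset_sdiff_left h3), h4, h5⟩, h3⟩
  -- a set which does not span strictly is contained in a base
  have above : ∀ B ∈ F, ∀ Y : Set α, Nul lev w (Y \ B) → ¬ Sp lev w B 1 Y →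
      ∃ D, ZBas lev w F D ∧ Y ⊆ D := by
    intro B hB Y h1 h2
    have h3 : Nul lev w ((Y ∪ B) \ B) := by
      rw [Set.union_sdiff_right]
      exact h1
    obtain ⟨D, h4, h5, h6, h7⟩ := exists_between hL h3
      ((sp_self B).mono hL subset_union_right) (subset_union_left (s := Y)) h2
    exact ⟨D, ⟨B, hB, h3.mono hL (sdiff_subset_sdiff_left h5), h6, h7⟩, h4⟩
  have mid : ∀ B ∈ F, Nul lev w (I \ B) → Nul lev w (B \ X) →
      (∃ D, ZBas lev w F D ∧ D ⊆ I) ∨ (∃ D, ZBas lev w F D ∧ X ⊆ D) ∨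
      ∃ D, ZBas lev w F D ∧ I ⊆ D ∧ D ⊆ X := by
    intro B hB h1 h2
    by_cases hI : Sp lev w B 1 I
    · exact Or.inl (below B hB I h1 (hI.anti (by norm_num)))
    by_cases hX : Nul lev w (X \ B)
    · by_cases hX0 : Sp lev w B 0 X
      · obtain ⟨D, h3, h4, h5, h6⟩ := exists_between hL hX hX0 hIX hI
        exact Or.inr (Or.inr ⟨D, ⟨B, hB, hX.mono hL (sdiff_subset_sdiff_left h4), h5, h6⟩,
          h3, h4⟩)
      · exact Or.inr (Or.inl (above B hB X hX fun h => hX0 (h.anti (by norm_num))))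
    · set X₁ : Set α := I ∪ (B ∩ X) with hX₁
      have h3 : Nul lev w (X₁ \ B) := by
        refine h1.mono hL ?_
        rintro x ⟨hx | hx, hxB⟩
        · exact ⟨hx, hxB⟩
        · exact absurd hx.1 hxB
      have h4 : Nul lev w (B \ X₁) := by
        refine h2.mono hL ?_
        rintro x ⟨hxB, hx⟩
        exact ⟨hxB, fun hxX => hx (Or.inr ⟨hxB, hxX⟩)⟩
      have h5 : ¬ Nul lev w (X \ X₁) := by
        intro h
        refine hX ((h.union h1).mono hL ?_)
        rintro x ⟨hxX, hxB⟩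
        by_cases hxI : x ∈ I
        · exact Or.inr ⟨hxI, hxB⟩
        · refine Or.inl ⟨hxX, ?_⟩
          rintro (h6 | h6)
          · exact hxI h6
          · exact hxB h6.1
      obtain ⟨A', h6, h7, h8⟩ := exists_add hL h4 h5 disjoint_sdiff_left
      have h9 : Nul lev w ((X₁ ∪ A') \ B) := by
        refine (h3.union h7).mono hL ?_
        rintro x ⟨hx | hx, hxB⟩
        · exact Or.inl ⟨hx, hxB⟩
        · exact Or.inr hx
      obtain ⟨D, h10, h11, h12, h13⟩ := exists_between hL h9 h8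
        (subset_union_left.trans (subset_union_left (s := X₁))) hI
      refine Or.inr (Or.inr ⟨D, ⟨B, hB, h9.mono hL (sdiff_subset_sdiff_left h11), h12, h13⟩,
        h10, h11.trans ?_⟩)
      exact union_subset (union_subset hIX inter_subset_right) (h6.trans sdiff_subset)
  obtain ⟨B, hB, h | h | ⟨h1, h2⟩⟩ := cut I X hIX
  · by_cases hI : Nul lev w (I \ B)
    · exact mid B hB hI (h.mono hL (sdiff_subset_sdiff_right hIX))
    · have h4 : Nul lev w (B \ (B ∩ I)) := by
        rw [Set.sdiff_self_inter]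
        exact h
      have h5 : Disjoint (I \ B) (B ∩ I) := by
        rw [Set.disjoint_left]
        rintro x hx hx'
        exact hx.2 hx'.1
      obtain ⟨A', h6, h7, h8⟩ := exists_add hL h4 hI h5
      have h9 : Nul lev w ((B ∩ I ∪ A') \ B) := by
        refine h7.mono hL ?_
        rintro x ⟨hx | hx, hxB⟩
        · exact absurd hx.1 hxB
        · exact hx
      obtain ⟨D, h10, h11⟩ := below B hB _ h9 h8
      exact Or.inl ⟨D, h10, h11.trans (union_subset inter_subset_right (h6.trans sdiff_subset))⟩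
  · by_cases hX : Sp lev w B 1 X
    · exact mid B hB (h.mono hL (sdiff_subset_sdiff_left hIX)) (hX.near hL h)
    · exact Or.inr (Or.inl (above B hB X h hX))
  · exact mid B hB h1 h2

/-- A family of sets which is an antichain modulo negligible sets and which cuts every
interval modulo negligible sets yields a uniform matroid, each of whose bases is a member of
the family up to a negligible set. -/
theorem exists_uniform_matroid_nul (hL : Levels lev w) (F : Set (Set α))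
    (anti : ∀ A ∈ F, ∀ B ∈ F, Nul lev w (A \ B) → A = B)
    (cut : ∀ I X : Set α, I ⊆ X → ∃ B ∈ F, Nul lev w (B \ I) ∨ Nul lev w (X \ B) ∨
      (Nul lev w (I \ B) ∧ Nul lev w (B \ X))) :
    ∃ M : Matroid α, M.E = Set.univ ∧
      (∀ D, M.IsBase D → ∃ B ∈ F, Nul lev w (D \ B) ∧ Nul lev w (B \ D)) ∧
      ∀ D, M.Indep D ∨ M.Spanning D := by
  let M : Matroid α := Matroid.ofBase Set.univ (ZBas lev w F)
    (by
      rcases ZBas.interval hL cut ∅ ∅ subset_rfl with ⟨D, hD, -⟩ | ⟨D, hD, -⟩ | ⟨D, hD, -⟩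
      · exact ⟨D, hD⟩
      · exact ⟨D, hD⟩
      · exact ⟨D, hD⟩)
    (by
      intro X Y hX hY e he
      have : ¬ Y ⊆ X := by
        intro hYX
        have := ZBas.antichain hL anti hY hX hYX
        rw [this] at he
        exact he.2 he.1
      obtain ⟨f, hfY, hfX⟩ := Set.not_subset.mp this
      exact ⟨f, ⟨hfY, hfX⟩, ZBas.exchange hL hX he.1 hfX (Nul.of_finite (finite_singleton f))⟩)
    (by
      intro X _ I hI hIX
      obtain ⟨D₀, hD₀, hID₀⟩ := hI
      have maxbase : ∀ D, ZBas lev w F D → D ⊆ X →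
          Maximal (fun K => (∃ B, ZBas lev w F B ∧ K ⊆ B) ∧ K ⊆ X) D := by
        intro D hD hDX
        refine ⟨⟨⟨D, hD, subset_rfl⟩, hDX⟩, ?_⟩
        rintro K ⟨⟨B, hB, hKB⟩, hKX⟩ hDK
        have := ZBas.antichain hL anti hD hB (hDK.trans hKB)
        rw [← this] at hKB
        exact hKB
      rcases ZBas.interval hL cut I X hIX with ⟨D, hD, hDI⟩ | ⟨D, hD, hXD⟩ | ⟨D, hD, hID, hDX⟩
      · have h1 : D = D₀ := ZBas.antichain hL anti hD hD₀ (hDI.trans hID₀)
        have h2 : I = D := (h1 ▸ hID₀).antisymm hDI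
        exact ⟨D, h2.subset, maxbase D hD (h2 ▸ hIX)⟩
      · refine ⟨X, hIX, ⟨⟨D, hD, hXD⟩, subset_rfl⟩, ?_⟩
        rintro K ⟨-, hKX⟩ -
        exact hKX
      · exact ⟨D, hID, maxbase D hD hDX⟩)
    (fun _ _ => Set.subset_univ _)
  have hbase : ∀ D, M.IsBase D ↔ ZBas lev w F D := fun D => Iff.rfl
  refine ⟨M, rfl, ?_, ?_⟩
  · intro D hD
    obtain ⟨B, hB, h1, h2, -⟩ := (hbase D).mp hD
    exact ⟨B, hB, h1, h2.near hL h1⟩
  intro D
  have hDE : D ⊆ M.E := Set.subset_univ _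
  rcases ZBas.interval hL cut D D subset_rfl with ⟨D', hD', h⟩ | ⟨D', hD', h⟩ | ⟨D', hD', h, -⟩
  · exact Or.inr ((Matroid.spanning_iff_exists_isBase_subset hDE).mpr ⟨D', hD', h⟩)
  · exact Or.inl (((hbase D').mpr hD').indep.subset h)
  · exact Or.inl (((hbase D').mpr hD').indep.subset h)

end Vale.Agent.P068
end
end

section

section

/-!
# P068: the splitting property of the density ideal, in ZFC
-/

open Cardinal Set Filter

namespace Vale.Agent.P068

theorem Levels.sum {lev : ℕ → ℕ} {w : ℕ → ℕ} (h : Levels lev w) :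
    Levels (Sum.elim lev lev : ℕ ⊕ ℕ → ℕ) w := by
  have hset : ∀ p : ℕ → Prop, {a : ℕ ⊕ ℕ | p (Sum.elim lev lev a)} =
      Sum.inl '' {a | p (lev a)} ∪ Sum.inr '' {a | p (lev a)} := by
    intro p
    ext a
    rcases a with a | a <;> simp
  constructor
  · intro n
    rw [hset (fun m => m = n)]
    exact ((h.fin n).image _).union ((h.fin n).image _)
  · intro j
    filter_upwards [h.growth (2 * j)] with n hn
    have h1 : {a : ℕ ⊕ ℕ | Sum.elim lev lev a < n}.ncard ≤ 2 * {a | lev a < n}.ncard := by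
      rw [hset (fun m => m < n)]
      refine (Set.ncard_union_le _ _).trans ?_
      rw [Set.ncard_image_of_injective _ Sum.inl_injective,
        Set.ncard_image_of_injective _ Sum.inr_injective]
      omega
    nlinarith

theorem card_agree {β : Type*} [Fintype β] [DecidableEq β] (S : Finset β) (s : Bool) :
    (Finset.univ.filter (fun a : β → Bool => ∀ b ∈ S, a b = s)).card * 2 ^ S.card =
      2 ^ Fintype.card β := by
  have h1 : Finset.univ.filter (fun a : β → Bool => ∀ b ∈ S, a b = s) =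
      Fintype.piFinset (fun b => if b ∈ S then {s} else Finset.univ) := by
    ext a
    simp only [Finset.mem_filter, Finset.mem_univ, true_and, Fintype.mem_piFinset]
    refine forall_congr' fun b => ?_
    by_cases hb : b ∈ S <;> simp [hb]
  rw [h1, Fintype.card_piFinset]
  have h2 : ∀ b : β, (if b ∈ S then ({s} : Finset Bool) else Finset.univ).card =
      if b ∈ S then 1 else 2 := by
    intro b
    by_cases hb : b ∈ S <;> simp [hb]
  rw [Finset.prod_congr rfl (fun b _ => h2 b), Finset.prod_ite]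
  simp only [Finset.prod_const_one, one_mul, Finset.prod_const]
  rw [← pow_add]
  congr 1
  have h3 : (Finset.univ.filter (fun b => b ∉ S)) = Finset.univ \ S := by
    ext b; simp only [Finset.mem_filter, Finset.mem_univ, true_and, Finset.mem_sdiff]
  rw [h3, Finset.card_sdiff_of_subset (Finset.subset_univ S), Finset.card_univ]
  have := Finset.card_le_univ S
  omega

/-- the cells: functions on the `n`-th level of the binary tree -/
abbrev Cell : Type := Σ n : ℕ, ((Fin n → Bool) → Bool)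

section

variable (e : ℕ ≃ Cell)

/-- the part of `A` in level `n` -/
noncomputable def sl (A : Set ℕ) (n : ℕ) : Finset ((Fin n → Bool) → Bool) :=
  open Classical in Finset.univ.filter (fun a => e.symm ⟨n, a⟩ ∈ A)

theorem mem_sl {A : Set ℕ} {n : ℕ} {a : (Fin n → Bool) → Bool} :
    a ∈ sl e A n ↔ e.symm ⟨n, a⟩ ∈ A := by
  simp [sl]

theorem inter_lev_eq (A : Set ℕ) (n : ℕ) :
    A ∩ {m | (e m).1 = n} = (fun a => e.symm ⟨n, a⟩) '' (sl e A n : Set _) := by
  ext m
  constructor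
  · rintro ⟨hm, hn⟩
    obtain ⟨c, rfl⟩ := e.symm.surjective m
    obtain ⟨n', a⟩ := c
    simp only [mem_ofPred_eq, Equiv.apply_symm_apply] at hn
    subst hn
    exact ⟨a, (mem_sl e).mpr hm, rfl⟩
  · rintro ⟨a, ha, rfl⟩
    refine ⟨(mem_sl e).mp ha, ?_⟩
    simp only [mem_ofPred_eq, Equiv.apply_symm_apply]

theorem sl_injective (n : ℕ) :
    Function.Injective (fun a : (Fin n → Bool) → Bool => e.symm (⟨n, a⟩ : Cell)) := by
  intro a b hab
  have := e.symm.injective hab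
  simpa using this

theorem lcnt_eq (A : Set ℕ) (n : ℕ) : lcnt (fun m => (e m).1) A n = (sl e A n).card := by
  unfold lcnt
  rw [inter_lev_eq e A n, Set.ncard_image_of_injective _ (sl_injective e n),
    Set.ncard_coe_finset]

theorem sl_univ (n : ℕ) : (sl e Set.univ n).card = 2 ^ 2 ^ n := by
  simp only [sl, mem_univ, Finset.filter_true, Finset.card_univ, Fintype.card_pi, Fintype.card_bool, Finset.prod_const, Fintype.card_fin]

theorem cell_levels : Levels (fun m => (e m).1) (fun n => 2 ^ 2 ^ n) := by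
  constructor
  · intro n
    have := inter_lev_eq e Set.univ n
    rw [Set.univ_inter] at this
    rw [this]
    exact (Finset.finite_toSet _).image _
  · intro j
    filter_upwards [eventually_ge_atTop (j + 5)] with n hn
    have h1 : {m | (e m).1 < n}.ncard ≤ n * 2 ^ 2 ^ (n - 1) := by
      have h2 : {m | (e m).1 < n} = ⋃ i ∈ Finset.range n, {m | (e m).1 = i} := by
        ext m; simp only [mem_ofPred_eq, Finset.mem_range, mem_iUnion, exists_prop, exists_eq_right']
      rw [h2]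
      have h3 : ∀ s : Finset ℕ, (∀ i ∈ s, i ≤ n - 1) →
          (⋃ i ∈ s, {m | (e m).1 = i}).ncard ≤ s.card * 2 ^ 2 ^ (n - 1) := by
        intro s
        induction s using Finset.induction_on with
        | empty => intro _; simp only [Finset.notMem_empty, iUnion_of_empty, iUnion_empty, ncard_empty, Finset.card_empty, zero_mul, Std.le_refl]
        | @insert i s his ih =>
          intro hs
          rw [Finset.set_biUnion_insert, Finset.card_insert_of_notMem his]
          refine (Set.ncard_union_le _ _).trans ?_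
          have h4 := ih (fun i' hi' => hs i' (Finset.mem_insert_of_mem hi'))
          have h5 : {m | (e m).1 = i}.ncard = 2 ^ 2 ^ i := by
            have h6 := lcnt_eq e Set.univ i
            unfold lcnt at h6
            rw [Set.univ_inter, sl_univ] at h6
            exact h6
          have h6 : 2 ^ 2 ^ i ≤ 2 ^ 2 ^ (n - 1) :=
            Nat.pow_le_pow_right (by norm_num) (Nat.pow_le_pow_right (by norm_num)
              (hs i (Finset.mem_insert_self _ _)))
          rw [h5]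
          linarith
      have := h3 (Finset.range n) (fun i hi => by
        have := Finset.mem_range.mp hi
        omega)
      rwa [Finset.card_range] at this
    have h2 : 2 ^ 2 ^ n = 2 ^ 2 ^ (n - 1) * 2 ^ 2 ^ (n - 1) := by
      rw [← pow_add]
      congr 1
      obtain ⟨k, rfl⟩ : ∃ k, n = k + 1 := ⟨n - 1, by omega⟩
      rw [Nat.add_sub_cancel, pow_succ]
      ring
    have h3 : j * (n + 1) ≤ 2 ^ 2 ^ (n - 1) := by
      have h4 : j ≤ 2 ^ n := (by omega : j ≤ n).trans Nat.lt_two_pow_self.le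
      have h5 : n + 1 ≤ 2 ^ n := Nat.lt_two_pow_self
      have h6 : n + n ≤ 2 ^ (n - 1) := by
        obtain ⟨k, rfl⟩ : ∃ k, n = k + 3 := ⟨n - 3, by omega⟩
        have h7 : k + 1 ≤ 2 ^ k := Nat.lt_two_pow_self
        have h8 : k + 3 - 1 = k + 2 := by omega
        rw [h8, pow_add]
        omega
      calc j * (n + 1) ≤ 2 ^ n * 2 ^ n := Nat.mul_le_mul h4 h5
        _ = 2 ^ (n + n) := by rw [← pow_add]
        _ ≤ 2 ^ 2 ^ (n - 1) := Nat.pow_le_pow_right (by norm_num) h6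
    change j * ({m | (e m).1 < n}.ncard + 1) ≤ 2 ^ 2 ^ n
    rw [h2]
    have h4 : 1 ≤ 2 ^ 2 ^ (n - 1) := Nat.one_le_two_pow
    calc j * ({m | (e m).1 < n}.ncard + 1)
        ≤ j * ((n + 1) * 2 ^ 2 ^ (n - 1)) := by
          apply Nat.mul_le_mul_left
          nlinarith only [h1, h4]
      _ = j * (n + 1) * 2 ^ 2 ^ (n - 1) := by ring
      _ ≤ 2 ^ 2 ^ (n - 1) * 2 ^ 2 ^ (n - 1) := Nat.mul_le_mul_right _ h3

theorem cell_not_nul_univ : ¬ Nul (fun m => (e m).1) (fun n => 2 ^ 2 ^ n) (Set.univ : Set ℕ) := by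
  intro h
  obtain ⟨n, hn⟩ := (h 2).exists
  rw [lcnt_eq, sl_univ] at hn
  have : 1 ≤ 2 ^ 2 ^ n := Nat.one_le_two_pow
  have h2 : 2 * 2 ^ 2 ^ n ≤ 2 ^ 2 ^ n := hn
  omega

/-- restriction of an infinite branch to its first `n` entries -/
def rs (x : ℕ → Bool) (n : ℕ) : Fin n → Bool := fun i => x i

/-- the cells whose value at `x` is `s` -/
def DD (x : ℕ → Bool) (s : Bool) : Set ℕ := {m | (e m).2 (rs x (e m).1) = s}

theorem mem_sl_DD {x : ℕ → Bool} {s : Bool} {n : ℕ} {a : (Fin n → Bool) → Bool} :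
    e.symm ⟨n, a⟩ ∈ DD e x s ↔ a (rs x n) = s := by
  unfold DD
  simp only [mem_ofPred_eq]
  rw [Equiv.apply_symm_apply]

theorem eventually_rs_ne {x y : ℕ → Bool} (h : x ≠ y) : ∀ᶠ n in atTop, rs x n ≠ rs y n := by
  obtain ⟨i, hi⟩ := Function.ne_iff.mp h
  filter_upwards [eventually_gt_atTop i] with n hn hxy
  exact hi (congrFun hxy ⟨i, hn⟩)

theorem finite_bad (A : Set ℕ) (hA : ¬ Nul (fun m => (e m).1) (fun n => 2 ^ 2 ^ n) A) (s : Bool) :
    {x : ℕ → Bool | Nul (fun m => (e m).1) (fun n => 2 ^ 2 ^ n) (A ∩ DD e x s)}.Finite := by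
  by_contra hinf
  refine hA fun J => ?_
  obtain ⟨F, hF, hFc⟩ := (show Set.Infinite _ from hinf).exists_subset_card_eq (2 * J)
  have h1 : ∀ᶠ n in atTop, ∀ x ∈ F,
      (2 * J * (2 * J + 1)) * lcnt (fun m => (e m).1) (A ∩ DD e x s) n ≤ 2 ^ 2 ^ n :=
    (Filter.eventually_all_finset F).mpr fun x hx => hF hx _
  have h2 : ∀ᶠ n in atTop, ∀ x ∈ F, ∀ y ∈ F, x ≠ y → rs x n ≠ rs y n := by
    refine (Filter.eventually_all_finset F).mpr fun x _ =>
      (Filter.eventually_all_finset F).mpr fun y _ => ?_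
    by_cases hxy : x = y
    · exact Eventually.of_forall fun n h => absurd hxy h
    · exact (eventually_rs_ne hxy).mono fun n hn _ => hn
  filter_upwards [h1, h2] with n h3 h4
  have hcard : (F.image (fun x => rs x n)).card = 2 * J := by
    rw [Finset.card_image_of_injOn, hFc]
    intro x hx y hy hxy
    by_contra hne
    exact h4 x hx y hy hne hxy
  have h5 := card_agree (F.image (fun x => rs x n)) (!s)
  rw [hcard] at h5
  set c := (Finset.univ.filter (fun a : (Fin n → Bool) → Bool =>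
    ∀ b ∈ F.image (fun x => rs x n), a b = !s)).card with hc
  have h6 : Fintype.card (Fin n → Bool) = 2 ^ n := by simp only [Fintype.card_pi, Fintype.card_bool, Finset.prod_const, Finset.card_univ, Fintype.card_fin]
  rw [h6] at h5
  have h7 : (sl e A n).card ≤ c + ∑ x ∈ F, (sl e (A ∩ DD e x s) n).card := by
    have h8 : sl e A n ⊆ (Finset.univ.filter (fun a : (Fin n → Bool) → Bool =>
        ∀ b ∈ F.image (fun x => rs x n), a b = !s)) ∪ F.biUnion (fun x => sl e (A ∩ DD e x s) n) := by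
      intro a ha
      rw [Finset.mem_union]
      by_cases hb : ∃ x ∈ F, a (rs x n) = s
      · obtain ⟨x, hx, hxs⟩ := hb
        right
        rw [Finset.mem_biUnion]
        exact ⟨x, hx, (mem_sl e).mpr ⟨(mem_sl e).mp ha, (mem_sl_DD e).mpr hxs⟩⟩
      · left
        rw [Finset.mem_filter]
        refine ⟨Finset.mem_univ _, ?_⟩
        intro b hbF
        obtain ⟨x, hx, rfl⟩ := Finset.mem_image.mp hbF
        have h9 : a (rs x n) ≠ s := fun h => hb ⟨x, hx, h⟩
        revert h9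
        cases a (rs x n) <;> cases s <;> simp
    refine (Finset.card_le_card h8).trans ((Finset.card_union_le _ _).trans ?_)
    exact Nat.add_le_add_left Finset.card_biUnion_le _
  rw [lcnt_eq]
  have h10 : 2 * J * c ≤ 2 ^ 2 ^ n := by
    have : 2 * J ≤ 2 ^ (2 * J) := Nat.lt_two_pow_self.le
    calc 2 * J * c ≤ 2 ^ (2 * J) * c := Nat.mul_le_mul_right _ this
      _ = c * 2 ^ (2 * J) := by ring
      _ = 2 ^ 2 ^ n := h5
  have h11 : (2 * J + 1) * (2 * J * ∑ x ∈ F, (sl e (A ∩ DD e x s) n).card) ≤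
      (2 * J) * 2 ^ 2 ^ n := by
    calc (2 * J + 1) * (2 * J * ∑ x ∈ F, (sl e (A ∩ DD e x s) n).card)
        = ∑ x ∈ F, (2 * J * (2 * J + 1)) * (sl e (A ∩ DD e x s) n).card := by
          rw [← mul_assoc, Finset.mul_sum]
          refine Finset.sum_congr rfl fun x _ => ?_
          ring
      _ ≤ ∑ _x ∈ F, 2 ^ 2 ^ n := by
          refine Finset.sum_le_sum fun x hx => ?_
          have := h3 x hx
          rwa [lcnt_eq] at this
      _ = (2 * J) * 2 ^ 2 ^ n := by
          rw [Finset.sum_const, hFc, smul_eq_mul]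
  have h12 : 2 * J * ∑ x ∈ F, (sl e (A ∩ DD e x s) n).card ≤ 2 ^ 2 ^ n := by
    by_contra hcon
    have h13 : 2 ^ 2 ^ n + 1 ≤ 2 * J * ∑ x ∈ F, (sl e (A ∩ DD e x s) n).card := by omega
    have h14 := Nat.mul_le_mul_left (2 * J + 1) h13
    nlinarith only [h10, h11, h14]
  have h15 : J * (sl e A n).card ≤
      J * (c + ∑ x ∈ F, (sl e (A ∩ DD e x s) n).card) := Nat.mul_le_mul_left _ h7
  have h16 : 2 * (J * (c + ∑ x ∈ F, (sl e (A ∩ DD e x s) n).card)) =
      2 * J * c + 2 * J * ∑ x ∈ F, (sl e (A ∩ DD e x s) n).card := by ring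
  omega

theorem cell_splitting (C : Set (Set ℕ)) (hC : #C < 𝔠)
    (hA : ∀ A ∈ C, ¬ Nul (fun m => (e m).1) (fun n => 2 ^ 2 ^ n) A) :
    ∃ S : Set ℕ, ∀ A ∈ C, ¬ Nul (fun m => (e m).1) (fun n => 2 ^ 2 ^ n) (A ∩ S) ∧
      ¬ Nul (fun m => (e m).1) (fun n => 2 ^ 2 ^ n) (A \ S) := by
  let Bad : C → Set (ℕ → Bool) := fun A =>
    {x | Nul (fun m => (e m).1) (fun n => 2 ^ 2 ^ n) (A.1 ∩ DD e x true)} ∪
    {x | Nul (fun m => (e m).1) (fun n => 2 ^ 2 ^ n) (A.1 ∩ DD e x false)}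
  have hBad : ∀ A, (Bad A).Finite := fun A =>
    (finite_bad e A.1 (hA A.1 A.2) true).union (finite_bad e A.1 (hA A.1 A.2) false)
  have hlt : #(⋃ A, Bad A : Set (ℕ → Bool)) < 𝔠 := by
    refine (Cardinal.mk_iUnion_le_sum_mk).trans_lt ?_
    have h5 : Cardinal.sum (fun A => #(Bad A)) ≤ Cardinal.sum (fun _ : C => (ℵ₀ : Cardinal.{0})) :=
      Cardinal.sum_le_sum _ _ (fun A => Cardinal.le_aleph0_iff_set_countable.mpr (hBad A).countable)
    refine h5.trans_lt ?_
    rw [Cardinal.sum_const']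
    exact Cardinal.mul_lt_of_lt Cardinal.aleph0_le_continuum hC Cardinal.aleph0_lt_continuum
  obtain ⟨x, hx⟩ : ∃ x : ℕ → Bool, x ∉ ⋃ A, Bad A := by
    by_contra hcon
    have h1 : (⋃ A, Bad A) = Set.univ := by
      rw [Set.eq_univ_iff_forall]
      intro x
      by_contra hx
      exact hcon ⟨x, hx⟩
    rw [h1, Cardinal.mk_univ] at hlt
    have h2 : #(ℕ → Bool) = 𝔠 := by simp
    rw [h2] at hlt
    exact lt_irrefl _ hlt
  refine ⟨DD e x true, fun A hAC => ⟨fun h => ?_, fun h => ?_⟩⟩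
  · exact hx (mem_iUnion.mpr ⟨⟨A, hAC⟩, Or.inl h⟩)
  · refine hx (mem_iUnion.mpr ⟨⟨A, hAC⟩, Or.inr ?_⟩)
    have h1 : A ∩ DD e x false = A \ DD e x true := by
      ext m
      simp only [DD, mem_inter_iff, Set.mem_sdiff, mem_ofPred_eq, Bool.not_eq_true]
    change Nul _ _ (A ∩ DD e x false)
    rw [h1]
    exact h

end

/-- The negligible sets of a suitable level structure on `ℕ` have the splitting property. -/
theorem exists_zideal : ∃ (lev : ℕ → ℕ) (w : ℕ → ℕ), Levels lev w ∧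
    Levels (Sum.elim lev lev : ℕ ⊕ ℕ → ℕ) w ∧ ¬ Nul lev w Set.univ ∧
    ∀ C : Set (Set ℕ), #C < 𝔠 → (∀ A ∈ C, ¬ Nul lev w A) →
      ∃ S : Set ℕ, ∀ A ∈ C, ¬ Nul lev w (A ∩ S) ∧ ¬ Nul lev w (A \ S) := by
  obtain ⟨e⟩ : Nonempty (ℕ ≃ Cell) := nonempty_equiv_of_countable
  exact ⟨_, _, cell_levels e, (cell_levels e).sum, cell_not_nul_univ e, cell_splitting e⟩

end Vale.Agent.P068
end
end

section

section

open Cardinal Set

namespace Vale.Agent.P068

/-- The value chain: the ordinals followed by a reversed copy of the ordinals. -/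
abbrev Val : Type 1 := Ordinal.{0} ⊕ₗ Ordinal.{0}ᵒᵈ

namespace Val

def lo (a : Ordinal.{0}) : Val := toLex (Sum.inl a)
def up (a : Ordinal.{0}) : Val := toLex (Sum.inr (OrderDual.toDual a))

def isL (v : Val) : Prop := ∃ a, v = lo a
def isU (v : Val) : Prop := ∃ a, v = up a

/-- distance from the outer end of the half containing the value -/
def rk (v : Val) : Ordinal.{0} := Sum.elim id OrderDual.ofDual (ofLex v)

theorem lo_le_lo {a b : Ordinal.{0}} : lo a ≤ lo b ↔ a ≤ b := Sum.Lex.inl_le_inl_iff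
theorem lo_lt_lo {a b : Ordinal.{0}} : lo a < lo b ↔ a < b := Sum.Lex.inl_lt_inl_iff
theorem up_le_up {a b : Ordinal.{0}} : up a ≤ up b ↔ b ≤ a := Sum.Lex.inr_le_inr_iff
theorem up_lt_up {a b : Ordinal.{0}} : up a < up b ↔ b < a := Sum.Lex.inr_lt_inr_iff
theorem lo_lt_up (a b : Ordinal.{0}) : lo a < up b := Sum.Lex.inl_lt_inr _ _

theorem isL_or_isU (v : Val) : isL v ∨ isU v := by
  rcases h : (ofLex v) with a | a
  · exact Or.inl ⟨a, by rw [lo, ← h]; rfl⟩
  · exact Or.inr ⟨OrderDual.ofDual a, by rw [up, OrderDual.toDual_ofDual, ← h]; rfl⟩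

theorem not_isL_up (a : Ordinal.{0}) : ¬ isL (up a) := by
  rintro ⟨b, hb⟩
  have := lo_lt_up b a
  rw [hb] at this
  exact lt_irrefl _ this

theorem not_isU_lo (a : Ordinal.{0}) : ¬ isU (lo a) := by
  rintro ⟨b, hb⟩
  have := lo_lt_up a b
  rw [hb] at this
  exact lt_irrefl _ this

theorem lt_of_isL_isU {v w : Val} (hv : isL v) (hw : isU w) : v < w := by
  obtain ⟨a, rfl⟩ := hv
  obtain ⟨b, rfl⟩ := hw
  exact lo_lt_up a b

theorem isL.not_isU {v : Val} (hv : isL v) : ¬ isU v :=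
  fun hw => lt_irrefl _ (lt_of_isL_isU hv hw)

theorem isU.not_isL {v : Val} (hv : isU v) : ¬ isL v :=
  fun hw => lt_irrefl _ (lt_of_isL_isU hw hv)

theorem isL.of_le {v w : Val} (hw : isL w) (h : v ≤ w) : isL v := by
  rcases isL_or_isU v with hv | hv
  · exact hv
  · exact absurd (h.trans_lt (lt_of_isL_isU hw hv)) (lt_irrefl _)

theorem isU.of_le {v w : Val} (hv : isU v) (h : v ≤ w) : isU w := by
  rcases isL_or_isU w with hw | hw
  · exact absurd (h.trans_lt (lt_of_isL_isU hw hv)) (lt_irrefl _)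
  · exact hw

theorem isL.exists_succ {v : Val} (hv : isL v) : ∃ w, isL w ∧ v < w := by
  obtain ⟨a, rfl⟩ := hv
  exact ⟨lo (Order.succ a), ⟨_, rfl⟩, lo_lt_lo.mpr (Order.lt_succ a)⟩

theorem isU.exists_pred {v : Val} (hv : isU v) : ∃ w, isU w ∧ w < v := by
  obtain ⟨a, rfl⟩ := hv
  exact ⟨up (Order.succ a), ⟨_, rfl⟩, up_lt_up.mpr (Order.lt_succ a)⟩

theorem exists_min {s : Set Val} (hs : ∀ v ∈ s, isL v) (hne : s.Nonempty) :
    ∃ m ∈ s, ∀ v ∈ s, m ≤ v := by
  have hne' : (lo ⁻¹' s).Nonempty := by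
    obtain ⟨v, hv⟩ := hne
    obtain ⟨a, rfl⟩ := hs v hv
    exact ⟨a, hv⟩
  refine ⟨lo (sInf (lo ⁻¹' s)), csInf_mem hne', ?_⟩
  intro v hv
  obtain ⟨a, rfl⟩ := hs v hv
  exact lo_le_lo.mpr (csInf_le' hv)

theorem exists_max {s : Set Val} (hs : ∀ v ∈ s, isU v) (hne : s.Nonempty) :
    ∃ m ∈ s, ∀ v ∈ s, v ≤ m := by
  have hne' : (up ⁻¹' s).Nonempty := by
    obtain ⟨v, hv⟩ := hne
    obtain ⟨a, rfl⟩ := hs v hv
    exact ⟨a, hv⟩
  refine ⟨up (sInf (up ⁻¹' s)), csInf_mem hne', ?_⟩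
  intro v hv
  obtain ⟨a, rfl⟩ := hs v hv
  exact up_le_up.mpr (csInf_le' hv)

theorem exists_bound (s : Set Val) (hs : Small.{0} s) : ∃ w, isL w ∧ ∀ v ∈ s, isL v → v ≤ w := by
  have hsm : Small.{0} (rk '' s : Set Ordinal.{0}) := inferInstance
  have hb : BddAbove (rk '' s) := Ordinal.bddAbove_of_small
  obtain ⟨b, hb⟩ := hb
  refine ⟨lo b, ⟨b, rfl⟩, ?_⟩
  intro v hv hvL
  obtain ⟨a, rfl⟩ := hvL
  exact lo_le_lo.mpr (hb ⟨_, hv, rfl⟩)

theorem rk_lt_of_isL {v w : Val} (hw : isL w) (h : v < w) : rk v < rk w := by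
  obtain ⟨a, rfl⟩ := hw.of_le h.le
  obtain ⟨b, rfl⟩ := hw
  exact lo_lt_lo.mp h

theorem rk_lt_of_isU {v w : Val} (hv : isU v) (h : v < w) : rk w < rk v := by
  obtain ⟨a, rfl⟩ := hv.of_le h.le
  obtain ⟨b, rfl⟩ := hv
  exact up_lt_up.mp h

/-- the value pairs permitted for bases -/
def allowed (v w : Val) : Prop := (isL v ∧ w < v) ∨ (isU v ∧ v < w)

end Val

end Vale.Agent.P068
end
end

section

section

open Cardinal Set

universe u

namespace Vale.Agent.P068

/-- `S` is covered by fewer than continuum many countable sets. -/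
def Sm {D : Type u} (S : Set D) : Prop :=
  ∃ (ι : Type) (f : ι → Set D), #ι < 𝔠 ∧ (∀ i, (f i).Countable) ∧ S ⊆ ⋃ i, f i

theorem Sm.union_countable {D : Type u} {S C : Set D} (h : Sm S) (hC : C.Countable) :
    Sm (S ∪ C) := by
  obtain ⟨ι, f, h1, h2, h3⟩ := h
  refine ⟨Option ι, fun o => o.elim C f, ?_, ?_, ?_⟩
  · rw [Cardinal.mk_option]
    exact Cardinal.add_lt_of_lt Cardinal.aleph0_le_continuum h1
      (Cardinal.one_lt_aleph0.trans Cardinal.aleph0_lt_continuum)
  · rintro (_ | i)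
    · exact hC
    · exact h2 i
  · rintro x (hx | hx)
    · obtain ⟨i, hi⟩ := mem_iUnion.mp (h3 hx)
      exact mem_iUnion.mpr ⟨some i, hi⟩
    · exact mem_iUnion.mpr ⟨none, hx⟩

theorem Sm.mk_image {D : Type u} {S : Set D} (h : Sm S) (g : D → Set ℕ) : #(g '' S) < 𝔠 := by
  obtain ⟨ι, f, h1, h2, h3⟩ := h
  have h4 : g '' S ⊆ ⋃ i, g '' f i := by
    rintro _ ⟨x, hx, rfl⟩
    obtain ⟨i, hi⟩ := mem_iUnion.mp (h3 hx)
    exact mem_iUnion.mpr ⟨i, x, hi, rfl⟩
  refine (Cardinal.mk_le_mk_of_subset h4).trans_lt ?_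
  refine (Cardinal.mk_iUnion_le_sum_mk).trans_lt ?_
  have h5 : Cardinal.sum (fun i => #(g '' f i)) ≤ Cardinal.sum (fun _ : ι => (ℵ₀ : Cardinal.{0})) :=
    Cardinal.sum_le_sum _ _ (fun i => Cardinal.le_aleph0_iff_set_countable.mpr ((h2 i).image g))
  refine h5.trans_lt ?_
  rw [Cardinal.sum_const']
  exact Cardinal.mul_lt_of_lt Cardinal.aleph0_le_continuum h1 Cardinal.aleph0_lt_continuum

theorem Sm.small {D : Type u} {S : Set D} (h : Sm S) : Small.{0} S := by
  obtain ⟨ι, f, h1, h2, h3⟩ := h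
  have : ∀ i, Small.{0} (f i) := fun i => by
    have := (h2 i).to_subtype
    infer_instance
  exact small_subset h3

theorem build {D : Type u} {T : Type} [LinearOrder T] [WellFoundedLT T]
    (hT : ∀ t : T, #(Set.Iio t) < 𝔠) (V : Set D → Prop) (S₀ : Set D) (hS₀ : S₀.Countable)
    (hV : ∀ c : Set (Set D), IsChain (· ⊆ ·) c → (∀ s ∈ c, V s ∧ S₀ ⊆ s) → V (S₀ ∪ ⋃₀ c))
    (Done : T → Set D → Prop) (hD : ∀ t S S', S ⊆ S' → Done t S → Done t S')
    (step : ∀ t S, V S → Sm S → S₀ ⊆ S →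
      ∃ S', S ⊆ S' ∧ V S' ∧ Done t S' ∧ (S' \ S).Countable) :
    ∃ S, V S ∧ S₀ ⊆ S ∧ ∀ t, Done t S := by
  classical
  let nxt : T → Set D → Set D := fun t S =>
    if h : V S ∧ Sm S ∧ S₀ ⊆ S then (step t S h.1 h.2.1 h.2.2).choose else S
  have nxt_sub : ∀ t S, S ⊆ nxt t S := by
    intro t S
    by_cases h : V S ∧ Sm S ∧ S₀ ⊆ S
    · simp only [nxt, dif_pos h]
      exact (step t S h.1 h.2.1 h.2.2).choose_spec.1
    · simp only [nxt, dif_neg h]
      exact subset_rfl
  have nxt_spec : ∀ t S, (V S ∧ Sm S ∧ S₀ ⊆ S) →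
      V (nxt t S) ∧ Done t (nxt t S) ∧ (nxt t S \ S).Countable := by
    intro t S h
    simp only [nxt, dif_pos h]
    exact (step t S h.1 h.2.1 h.2.2).choose_spec.2
  let G : T → Set D := WellFounded.fix (wellFounded_lt (α := T))
    (fun t G' => nxt t (S₀ ∪ ⋃ s : Set.Iio t, G' s.1 s.2))
  have hG : ∀ t, G t = nxt t (S₀ ∪ ⋃ s : Set.Iio t, G s.1) := by
    intro t
    exact WellFounded.fix_eq _ _ t
  have key : ∀ t, V (S₀ ∪ ⋃ s : Set.Iio t, G s.1) ∧ Sm (S₀ ∪ ⋃ s : Set.Iio t, G s.1) := by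
    intro t
    induction t using WellFoundedLT.induction with
    | ind t ih =>
      have hUG : ∀ s, (S₀ ∪ ⋃ r : Set.Iio s, G r.1) ⊆ G s := by
        intro s
        conv_rhs => rw [hG s]
        exact nxt_sub _ _
      have hmono : ∀ s s', s < s' → G s ⊆ G s' := by
        intro s s' h x hx
        exact hUG s' (Or.inr (mem_iUnion.mpr ⟨⟨s, h⟩, hx⟩))
      have hmono' : ∀ s s', s ≤ s' → G s ⊆ G s' := by
        intro s s' h
        rcases h.lt_or_eq with h | h
        · exact hmono _ _ h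
        · rw [h]
      constructor
      · have h1 := hV (G '' Set.Iio t) ?_ ?_
        · have h2 : (⋃ s : Set.Iio t, G s.1) = ⋃₀ (G '' Set.Iio t) := by
            rw [sUnion_image, biUnion_eq_iUnion]
          rw [h2]
          exact h1
        · rintro _ ⟨s, -, rfl⟩ _ ⟨s', -, rfl⟩ -
          rcases le_total s s' with h | h
          · exact Or.inl (hmono' _ _ h)
          · exact Or.inr (hmono' _ _ h)
        · rintro _ ⟨s, hs, rfl⟩
          refine ⟨?_, fun x hx => hUG s (Or.inl hx)⟩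
          rw [hG s]
          exact (nxt_spec s _ ⟨(ih s hs).1, (ih s hs).2, subset_union_left⟩).1
      · refine ⟨Option (Set.Iio t), fun o => o.elim S₀
          (fun s => G s \ (S₀ ∪ ⋃ r : Set.Iio s.1, G r.1)), ?_, ?_, ?_⟩
        · rw [Cardinal.mk_option]
          exact Cardinal.add_lt_of_lt Cardinal.aleph0_le_continuum (hT t)
            (Cardinal.one_lt_aleph0.trans Cardinal.aleph0_lt_continuum)
        · rintro (_ | s)
          · exact hS₀
          · have h3 := (nxt_spec s _ ⟨(ih s s.2).1, (ih s s.2).2, subset_union_left⟩).2.2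
            rw [← hG s] at h3
            exact h3
        · rintro x (hx | hx)
          · exact mem_iUnion.mpr ⟨none, hx⟩
          · by_cases hx0 : x ∈ S₀
            · exact mem_iUnion.mpr ⟨none, hx0⟩
            obtain ⟨s, hs⟩ := mem_iUnion.mp hx
            have hne : {r : T | x ∈ G r}.Nonempty := ⟨s.1, hs⟩
            let m := (wellFounded_lt (α := T)).min _ hne
            have hm : x ∈ G m := (wellFounded_lt (α := T)).min_mem _ hne
            have hms : m ≤ s.1 := by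
              by_contra hcon
              exact (wellFounded_lt (α := T)).not_lt_min {r : T | x ∈ G r} hs (not_le.mp hcon)
            refine mem_iUnion.mpr ⟨some ⟨m, lt_of_le_of_lt hms s.2⟩, hm, ?_⟩
            rintro (h | h)
            · exact hx0 h
            · obtain ⟨r, hr⟩ := mem_iUnion.mp h
              exact (wellFounded_lt (α := T)).not_lt_min {r : T | x ∈ G r} hr r.2
  have hUG : ∀ s, (S₀ ∪ ⋃ r : Set.Iio s, G r.1) ⊆ G s := by
    intro s
    conv_rhs => rw [hG s]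
    exact nxt_sub _ _
  have hmono' : ∀ s s', s ≤ s' → G s ⊆ G s' := by
    intro s s' h
    rcases h.lt_or_eq with h | h
    · intro x hx
      exact hUG s' (Or.inr (mem_iUnion.mpr ⟨⟨s, h⟩, hx⟩))
    · rw [h]
  have hspec : ∀ s, V (G s) ∧ Done s (G s) := by
    intro s
    have h := nxt_spec s _ ⟨(key s).1, (key s).2, subset_union_left⟩
    rw [← hG s] at h
    exact ⟨h.1, h.2.1⟩
  refine ⟨S₀ ∪ ⋃₀ (range G), ?_, subset_union_left, ?_⟩
  · apply hV
    · rintro _ ⟨s, rfl⟩ _ ⟨s', rfl⟩ -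
      rcases le_total s s' with h | h
      · exact Or.inl (hmono' _ _ h)
      · exact Or.inr (hmono' _ _ h)
    · rintro _ ⟨s, rfl⟩
      exact ⟨(hspec s).1, fun x hx => hUG s (Or.inl hx)⟩
  · intro t
    refine hD t (G t) _ ?_ (hspec t).2
    intro x hx
    exact Or.inr ⟨G t, ⟨t, rfl⟩, hx⟩

end Vale.Agent.P068
end
end

section

section

/-!
# P068: the recursion, for an arbitrary comparison relation with generic sets
-/

open Cardinal Set

namespace Vale.Agent.P068.ZRec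

open Vale.Agent.P068

/-- The properties of a comparison relation that the recursion needs. -/
structure Good (R : Set ℕ → Set ℕ → Prop) : Prop where
  of_subset : ∀ {A B : Set ℕ}, A ⊆ B → R A B
  trans : ∀ {A B C : Set ℕ}, R A B → R B C → R A C
  generic : ∀ {I X : Set ℕ}, I ⊆ X → ∀ C : Set (Set ℕ), #C < 𝔠 →
    ∃ P, I ⊆ P ∧ P ⊆ X ∧ ∀ Z ∈ C, (R Z P → R Z I) ∧ (R P Z → R X Z)
  univ_empty : ¬ R Set.univ ∅

variable {R : Set ℕ → Set ℕ → Prop}

theorem Good.refl (g : Good R) (A : Set ℕ) : R A A := g.of_subset subset_rfl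

/-- a set together with its value -/
abbrev Lab : Type 1 := Set ℕ × Val

/-- either a label or a base candidate -/
abbrev Item : Type 1 := Lab ⊕ (Lab × Lab)

structure Valid (R : Set ℕ → Set ℕ → Prop) (S : Set Item) : Prop where
  mono : ∀ a b : Lab, Sum.inl a ∈ S → Sum.inl b ∈ S → R a.1 b.1 → a.2 ≤ b.2
  mem : ∀ a b : Lab, Sum.inr (a, b) ∈ S → Sum.inl a ∈ S ∧ Sum.inl b ∈ S
  allowed : ∀ a b : Lab, Sum.inr (a, b) ∈ S → Val.allowed a.2 b.2
  anti : ∀ a b a' b' : Lab, Sum.inr (a, b) ∈ S → Sum.inr (a', b') ∈ S →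
    R a.1 a'.1 → R b'.1 b.1 → a = a' ∧ b = b'

theorem Valid.sUnion {S₀ : Set Item} (h0 : Valid R S₀) (c : Set (Set Item))
    (hc : IsChain (· ⊆ ·) c) (hV : ∀ s ∈ c, Valid R s ∧ S₀ ⊆ s) : Valid R (S₀ ∪ ⋃₀ c) := by
  have common : ∀ d ∈ S₀ ∪ ⋃₀ c, ∀ d' ∈ S₀ ∪ ⋃₀ c,
      ∃ s, Valid R s ∧ s ⊆ S₀ ∪ ⋃₀ c ∧ d ∈ s ∧ d' ∈ s := by
    have hsub : ∀ s ∈ c, s ⊆ S₀ ∪ ⋃₀ c := fun s hs x hx => Or.inr ⟨s, hs, hx⟩
    rintro d (hd | ⟨s, hs, hd⟩) d' (hd' | ⟨s', hs', hd'⟩)
    · exact ⟨S₀, h0, subset_union_left, hd, hd'⟩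
    · exact ⟨s', (hV s' hs').1, hsub s' hs', (hV s' hs').2 hd, hd'⟩
    · exact ⟨s, (hV s hs).1, hsub s hs, hd, (hV s hs).2 hd'⟩
    · rcases hc.total hs hs' with h | h
      · exact ⟨s', (hV s' hs').1, hsub s' hs', h hd, hd'⟩
      · exact ⟨s, (hV s hs).1, hsub s hs, hd, h hd'⟩
  constructor
  · intro a b ha hb hab
    obtain ⟨s, hs, -, h1, h2⟩ := common _ ha _ hb
    exact hs.mono a b h1 h2 hab
  · intro a b hab
    obtain ⟨s, hs, hsub, h1, -⟩ := common _ hab _ hab
    exact ⟨hsub (hs.mem a b h1).1, hsub (hs.mem a b h1).2⟩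
  · intro a b hab
    obtain ⟨s, hs, -, h1, -⟩ := common _ hab _ hab
    exact hs.allowed a b h1
  · intro a b a' b' hab hab' h1 h2
    obtain ⟨s, hs, -, h3, h4⟩ := common _ hab _ hab'
    exact hs.anti a b a' b' h3 h4 h1 h2

theorem Valid.addLabel {S : Set Item} (h : Valid R S) (P : Set ℕ) (t : Val)
    (h1 : ∀ b : Lab, Sum.inl b ∈ S → R b.1 P → b.2 ≤ t)
    (h2 : ∀ b : Lab, Sum.inl b ∈ S → R P b.1 → t ≤ b.2) :
    Valid R (insert (Sum.inl (P, t)) S) := by
  constructor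
  · rintro a b ha hb hab
    rcases ha with ha | ha <;> rcases hb with hb | hb
    · cases ha; cases hb; exact le_rfl
    · cases ha; exact h2 b hb hab
    · cases hb; exact h1 a ha hab
    · exact h.mono a b ha hb hab
  · rintro a b (hab | hab)
    · cases hab
    · exact ⟨Or.inr (h.mem a b hab).1, Or.inr (h.mem a b hab).2⟩
  · rintro a b (hab | hab)
    · cases hab
    · exact h.allowed a b hab
  · rintro a b a' b' (hab | hab) (hab' | hab') h3 h4
    · cases hab
    · cases hab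
    · cases hab'
    · exact h.anti a b a' b' hab hab' h3 h4

theorem Valid.addPair {S : Set Item} (h : Valid R S) (a b : Lab) (ha : Sum.inl a ∈ S)
    (hb : Sum.inl b ∈ S) (hal : Val.allowed a.2 b.2)
    (h1 : ∀ a' b' : Lab, Sum.inr (a', b') ∈ S → R a'.1 a.1 → ¬ R b.1 b'.1)
    (h2 : ∀ a' b' : Lab, Sum.inr (a', b') ∈ S → R a.1 a'.1 → ¬ R b'.1 b.1) :
    Valid R (insert (Sum.inr (a, b)) S) := by
  constructor
  · rintro c d (hc | hc) (hd | hd) hcd
    · cases hc
    · cases hc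
    · cases hd
    · exact h.mono c d hc hd hcd
  · rintro c d (hcd | hcd)
    · cases hcd
      exact ⟨Or.inr ha, Or.inr hb⟩
    · exact ⟨Or.inr (h.mem c d hcd).1, Or.inr (h.mem c d hcd).2⟩
  · rintro c d (hcd | hcd)
    · cases hcd
      exact hal
    · exact h.allowed c d hcd
  · rintro c d c' d' hcd hcd' h3 h4
    rcases hcd with hcd | hcd <;> rcases hcd' with hcd' | hcd'
    · cases hcd; cases hcd'; exact ⟨rfl, rfl⟩
    · cases hcd
      exact absurd h4 (h2 c' d' hcd' h3)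
    · cases hcd'
      exact absurd h4 (h1 c d hcd h3)
    · exact h.anti c d c' d' hcd hcd' h3 h4

theorem Valid.decide (g : Good R) {S : Set Item} (h : Valid R S) (hs : Sm S) (y : Set ℕ) :
    ∃ v, Valid R (insert (Sum.inl (y, v)) S) := by
  by_cases h1 : ∃ b : Lab, Sum.inl b ∈ S ∧ R y b.1 ∧ Val.isL b.2
  · obtain ⟨m, ⟨b, hb, hyb, hbm, rfl⟩, hm⟩ := Val.exists_min
      (s := {v | ∃ b : Lab, Sum.inl b ∈ S ∧ R y b.1 ∧ Val.isL b.2 ∧ b.2 = v})
      (by rintro v ⟨b, -, -, hL, rfl⟩; exact hL)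
      (by obtain ⟨b, hb, hyb, hL⟩ := h1; exact ⟨b.2, b, hb, hyb, hL, rfl⟩)
    refine ⟨b.2, h.addLabel y b.2 ?_ ?_⟩
    · intro c hc hcy
      exact h.mono c b hc hb (g.trans hcy hyb)
    · intro c hc hyc
      rcases Val.isL_or_isU c.2 with hL | hU
      · exact hm _ ⟨c, hc, hyc, hL, rfl⟩
      · exact (Val.lt_of_isL_isU hbm hU).le
  by_cases h2 : ∃ b : Lab, Sum.inl b ∈ S ∧ R b.1 y ∧ Val.isU b.2
  · obtain ⟨m, ⟨b, hb, hyb, hbm, rfl⟩, hm⟩ := Val.exists_max
      (s := {v | ∃ b : Lab, Sum.inl b ∈ S ∧ R b.1 y ∧ Val.isU b.2 ∧ b.2 = v})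
      (by rintro v ⟨b, -, -, hU, rfl⟩; exact hU)
      (by obtain ⟨b, hb, hyb, hU⟩ := h2; exact ⟨b.2, b, hb, hyb, hU, rfl⟩)
    refine ⟨b.2, h.addLabel y b.2 ?_ ?_⟩
    · intro c hc hcy
      rcases Val.isL_or_isU c.2 with hL | hU
      · exact (Val.lt_of_isL_isU hL hbm).le
      · exact hm _ ⟨c, hc, hcy, hU, rfl⟩
    · intro c hc hyc
      exact h.mono b c hb hc (g.trans hyb hyc)
  · have hsm : Small.{0} ((fun d : Item => Sum.elim (fun b : Lab => b.2) (fun p => p.1.2) d) '' S) := by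
      have := hs.small
      infer_instance
    obtain ⟨w, hwL, hw⟩ := Val.exists_bound _ hsm
    refine ⟨w, h.addLabel y w ?_ ?_⟩
    · intro c hc hcy
      rcases Val.isL_or_isU c.2 with hL | hU
      · exact hw c.2 ⟨Sum.inl c, hc, rfl⟩ hL
      · exact absurd ⟨c, hc, hcy, hU⟩ h2
    · intro c hc hyc
      rcases Val.isL_or_isU c.2 with hL | hU
      · exact absurd ⟨c, hc, hyc, hL⟩ h1
      · exact (Val.lt_of_isL_isU hwL hU).le

theorem exists_generic (g : Good R) {S : Set Item} (hS : Sm S) {I X : Set ℕ}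
    (hIX : I ⊆ X) :
    ∃ P, I ⊆ P ∧ P ⊆ X ∧
      ∀ b : Lab, Sum.inl b ∈ S → (R b.1 P → R b.1 I) ∧ (R P b.1 → R X b.1) := by
  let q : Item → Set ℕ := fun d => Sum.elim (fun b : Lab => b.1) (fun p => p.1.1) d
  obtain ⟨P, h1, h2, h3⟩ := g.generic hIX (q '' S) (hS.mk_image q)
  exact ⟨P, h1, h2, fun b hb => h3 b.1 ⟨Sum.inl b, hb, rfl⟩⟩

/-- the interval between the blocks `(I, J)` and `(X, K)` has been dealt with -/
def Cov (R : Set ℕ → Set ℕ → Prop) (S : Set Item) (I J X K : Set ℕ) : Prop :=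
  ∃ a b : Lab, Sum.inr (a, b) ∈ S ∧ ((R a.1 I ∧ R J b.1) ∨ (R X a.1 ∧ R b.1 K) ∨
    (R I a.1 ∧ R b.1 J ∧ R a.1 X ∧ R K b.1))

theorem Cov.mono {S S' : Set Item} (hS : S ⊆ S') {I J X K : Set ℕ} (h : Cov R S I J X K) :
    Cov R S' I J X K := by
  obtain ⟨a, b, hab, h⟩ := h
  exact ⟨a, b, hS hab, h⟩

theorem Valid.moveP (g : Good R) {S : Set Item} (h : Valid R S) (hS : Sm S) {I X : Set ℕ}
    {i x t : Val} (hI : Sum.inl (I, i) ∈ S) (hX : Sum.inl (X, x) ∈ S) (hIX : I ⊆ X)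
    {q : Lab} (hq : Sum.inl q ∈ S) (hit : i ≤ t) (htx : t ≤ x) (hal : Val.allowed t q.2)
    (h1 : ∀ a b : Lab, Sum.inr (a, b) ∈ S → R a.1 I → ¬ R q.1 b.1)
    (h2 : ∀ a b : Lab, Sum.inr (a, b) ∈ S → R X a.1 → ¬ R b.1 q.1) :
    ∃ S', S ⊆ S' ∧ Valid R S' ∧ (S' \ S).Countable ∧
      ∃ P, I ⊆ P ∧ P ⊆ X ∧ Sum.inr ((P, t), q) ∈ S' := by
  obtain ⟨P, hP1, hP2, hP3⟩ := exists_generic g hS hIX
  have hv : Valid R (insert (Sum.inl (P, t)) S) := by
    refine h.addLabel P t ?_ ?_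
    · intro b hb hbP
      exact (h.mono b (I, i) hb hI ((hP3 b hb).1 hbP)).trans hit
    · intro b hb hPb
      exact htx.trans (h.mono (X, x) b hX hb ((hP3 b hb).2 hPb))
  have hv2 : Valid R (insert (Sum.inr ((P, t), q)) (insert (Sum.inl (P, t)) S)) := by
    refine hv.addPair (P, t) q (Or.inl rfl) (Or.inr hq) hal ?_ ?_
    · rintro a b (hab | hab) h3 h4
      · cases hab
      · exact h1 a b hab ((hP3 a (h.mem a b hab).1).1 h3) h4
    · rintro a b (hab | hab) h3 h4
      · cases hab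
      · exact h2 a b hab ((hP3 a (h.mem a b hab).1).2 h3) h4
  refine ⟨_, ?_, hv2, ?_, P, hP1, hP2, Or.inl rfl⟩
  · intro d hd
    exact Or.inr (Or.inr hd)
  · refine (Set.toFinite {Sum.inr ((P, t), q), Sum.inl (P, t)}).countable.mono ?_
    rintro d ⟨hd | hd | hd, hdS⟩
    · exact Or.inl hd
    · exact Or.inr hd
    · exact absurd hd hdS

theorem Valid.moveQ (g : Good R) {S : Set Item} (h : Valid R S) (hS : Sm S) {K J : Set ℕ}
    {k j t : Val} (hK : Sum.inl (K, k) ∈ S) (hJ : Sum.inl (J, j) ∈ S) (hKJ : K ⊆ J)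
    {p : Lab} (hp : Sum.inl p ∈ S) (hkt : k ≤ t) (htj : t ≤ j) (hal : Val.allowed p.2 t)
    (h1 : ∀ a b : Lab, Sum.inr (a, b) ∈ S → R a.1 p.1 → ¬ R J b.1)
    (h2 : ∀ a b : Lab, Sum.inr (a, b) ∈ S → R p.1 a.1 → ¬ R b.1 K) :
    ∃ S', S ⊆ S' ∧ Valid R S' ∧ (S' \ S).Countable ∧
      ∃ Q, K ⊆ Q ∧ Q ⊆ J ∧ Sum.inr (p, (Q, t)) ∈ S' := by
  obtain ⟨Q, hQ1, hQ2, hQ3⟩ := exists_generic g hS hKJ
  have hv : Valid R (insert (Sum.inl (Q, t)) S) := by
    refine h.addLabel Q t ?_ ?_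
    · intro b hb hbQ
      exact (h.mono b (K, k) hb hK ((hQ3 b hb).1 hbQ)).trans hkt
    · intro b hb hQb
      exact htj.trans (h.mono (J, j) b hJ hb ((hQ3 b hb).2 hQb))
  have hv2 : Valid R (insert (Sum.inr (p, (Q, t))) (insert (Sum.inl (Q, t)) S)) := by
    refine hv.addPair p (Q, t) (Or.inr hp) (Or.inl rfl) hal ?_ ?_
    · rintro a b (hab | hab) h3 h4
      · cases hab
      · exact h1 a b hab h3 ((hQ3 b (h.mem a b hab).2).2 h4)
    · rintro a b (hab | hab) h3 h4
      · cases hab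
      · exact h2 a b hab h3 ((hQ3 b (h.mem a b hab).2).1 h4)
  refine ⟨_, ?_, hv2, ?_, Q, hQ1, hQ2, Or.inl rfl⟩
  · intro d hd
    exact Or.inr (Or.inr hd)
  · refine (Set.toFinite {Sum.inr (p, (Q, t)), Sum.inl (Q, t)}).countable.mono ?_
    rintro d ⟨hd | hd | hd, hdS⟩
    · exact Or.inl hd
    · exact Or.inr hd
    · exact absurd hd hdS

/-- The main step: the lower block is not big and the upper block is not small. -/
theorem Valid.core (g : Good R) {S : Set Item} (h : Valid R S) (hS : Sm S)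
    {I J X K : Set ℕ} {i j x k : Val} (hI : Sum.inl (I, i) ∈ S) (hJ : Sum.inl (J, j) ∈ S)
    (hX : Sum.inl (X, x) ∈ S) (hK : Sum.inl (K, k) ∈ S) (hIX : I ⊆ X) (hKJ : K ⊆ J)
    (hlow : Val.isU i → i < j) (hupp : Val.isL x → k < x) :
    ∃ S', S ⊆ S' ∧ Valid R S' ∧ Cov R S' I J X K ∧ (S' \ S).Countable := by
  by_cases hcov : Cov R S I J X K
  · exact ⟨S, subset_rfl, h, hcov, by simp only [_root_.sdiff_self, bot_eq_empty, countable_empty]⟩
  have hn1 : ∀ a b : Lab, Sum.inr (a, b) ∈ S → R a.1 I → ¬ R J b.1 :=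
    fun a b hab h1 h2 => hcov ⟨a, b, hab, Or.inl ⟨h1, h2⟩⟩
  have hn2 : ∀ a b : Lab, Sum.inr (a, b) ∈ S → R X a.1 → ¬ R b.1 K :=
    fun a b hab h1 h2 => hcov ⟨a, b, hab, Or.inr (Or.inl ⟨h1, h2⟩)⟩
  have hn3 : ∀ a b : Lab, Sum.inr (a, b) ∈ S → R I a.1 → R b.1 J → R a.1 X → ¬ R K b.1 :=
    fun a b hab h1 h2 h3 h4 => hcov ⟨a, b, hab, Or.inr (Or.inr ⟨h1, h2, h3, h4⟩)⟩
  have hix : i ≤ x := h.mono _ _ hI hX (g.of_subset hIX)
  have hkj : k ≤ j := h.mono _ _ hK hJ (g.of_subset hKJ)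
  have hcase : (Val.isL i ∧ Val.isL k) ∨ (Val.isU x ∧ Val.isU j) := by
    rcases Val.isL_or_isU i with hi | hi
    · rcases Val.isL_or_isU k with hk | hk
      · exact Or.inl ⟨hi, hk⟩
      · refine Or.inr ⟨?_, hk.of_le hkj⟩
        rcases Val.isL_or_isU x with hx | hx
        · exact absurd ((hupp hx).trans (Val.lt_of_isL_isU hx hk)) (lt_irrefl _)
        · exact hx
    · exact Or.inr ⟨hi.of_le hix, hi.of_le (hlow hi).le⟩
  rcases hcase with ⟨hi, hk⟩ | ⟨hx, hj⟩
  · by_cases hb : ∃ a b : Lab, Sum.inr (a, b) ∈ S ∧ R a.1 I ∧ R K b.1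
    · obtain ⟨a', b', hab', ha', hb'⟩ := hb
      have hal : Val.allowed i k := by
        have h1 : a'.2 ≤ i := h.mono a' (I, i) (h.mem _ _ hab').1 hI ha'
        have h2 : k ≤ b'.2 := h.mono (K, k) b' hK (h.mem _ _ hab').2 hb'
        rcases h.allowed _ _ hab' with ⟨-, h3⟩ | ⟨h3, -⟩
        · exact Or.inl ⟨hi, h2.trans_lt (h3.trans_le h1)⟩
        · exact absurd (h3.of_le h1) hi.not_isU
      obtain ⟨S', h1, h2, h3, Q, h4, h5, h6⟩ := h.moveQ g hS hK hJ hKJ (p := (I, i)) hI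
        le_rfl hkj hal hn1 (by
          intro a b hab h1 h2
          obtain ⟨rfl, rfl⟩ := h.anti _ _ _ _ hab' hab (g.trans ha' h1) (g.trans h2 hb')
          exact hn3 _ _ hab h1 (g.trans h2 (g.of_subset hKJ)) (g.trans ha' (g.of_subset hIX)) hb')
      refine ⟨S', h1, h2, ⟨(I, i), (Q, k), h6, Or.inr (Or.inr ⟨g.refl _, ?_, ?_, ?_⟩)⟩, h3⟩
      · exact g.of_subset h5
      · exact g.of_subset hIX
      · exact g.of_subset h4
    · have ht : ∃ t, i ≤ t ∧ t ≤ x ∧ Val.allowed t k := by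
        rcases Val.isL_or_isU x with hx | hx
        · exact ⟨x, hix, le_rfl, Or.inl ⟨hx, hupp hx⟩⟩
        · obtain ⟨k', hk', hkk'⟩ := hk.exists_succ
          rcases le_total i k' with hik | hik
          · exact ⟨k', hik, (Val.lt_of_isL_isU hk' hx).le, Or.inl ⟨hk', hkk'⟩⟩
          · exact ⟨i, le_rfl, hix, Or.inl ⟨hi, hkk'.trans_le hik⟩⟩
      obtain ⟨t, ht1, ht2, ht3⟩ := ht
      obtain ⟨S', h1, h2, h3, P, h4, h5, h6⟩ := h.moveP g hS hI hX hIX (q := (K, k)) hK
        ht1 ht2 ht3 (fun a b hab h1 h2 => hb ⟨a, b, hab, h1, h2⟩) hn2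
      refine ⟨S', h1, h2, ⟨(P, t), (K, k), h6, Or.inr (Or.inr ⟨?_, ?_, ?_, g.refl _⟩)⟩, h3⟩
      · exact g.of_subset h4
      · exact g.of_subset hKJ
      · exact g.of_subset h5
  · by_cases hb : ∃ a b : Lab, Sum.inr (a, b) ∈ S ∧ R X a.1 ∧ R b.1 J
    · obtain ⟨a', b', hab', ha', hb'⟩ := hb
      have hal : Val.allowed x j := by
        have h1 : x ≤ a'.2 := h.mono (X, x) a' hX (h.mem _ _ hab').1 ha'
        have h2 : b'.2 ≤ j := h.mono b' (J, j) (h.mem _ _ hab').2 hJ hb'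
        rcases h.allowed _ _ hab' with ⟨h3, -⟩ | ⟨-, h3⟩
        · exact absurd (h3.of_le h1) hx.not_isL
        · exact Or.inr ⟨hx, h1.trans_lt (h3.trans_le h2)⟩
      obtain ⟨S', h1, h2, h3, Q, h4, h5, h6⟩ := h.moveQ g hS hK hJ hKJ (p := (X, x)) hX
        hkj le_rfl hal (by
          intro a b hab h1 h2
          obtain ⟨rfl, rfl⟩ := h.anti _ _ _ _ hab hab' (g.trans h1 ha') (g.trans hb' h2)
          exact hn3 _ _ hab (g.trans (g.of_subset hIX) ha') hb' h1
            (g.trans (g.of_subset hKJ) h2)) hn2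
      refine ⟨S', h1, h2, ⟨(X, x), (Q, j), h6, Or.inr (Or.inr ⟨?_, ?_, g.refl _, ?_⟩)⟩, h3⟩
      · exact g.of_subset hIX
      · exact g.of_subset h5
      · exact g.of_subset h4
    · have ht : ∃ t, i ≤ t ∧ t ≤ x ∧ Val.allowed t j := by
        rcases Val.isL_or_isU i with hi | hi
        · obtain ⟨j', hj', hjj'⟩ := hj.exists_pred
          rcases le_total x j' with hxj | hxj
          · exact ⟨x, hix, le_rfl, Or.inr ⟨hx, hxj.trans_lt hjj'⟩⟩
          · exact ⟨j', (Val.lt_of_isL_isU hi hj').le, hxj, Or.inr ⟨hj', hjj'⟩⟩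
        · exact ⟨i, le_rfl, hix, Or.inr ⟨hi, hlow hi⟩⟩
      obtain ⟨t, ht1, ht2, ht3⟩ := ht
      obtain ⟨S', h1, h2, h3, P, h4, h5, h6⟩ := h.moveP g hS hI hX hIX (q := (J, j)) hJ
        ht1 ht2 ht3 hn1 (fun a b hab h1 h2 => hb ⟨a, b, hab, h1, h2⟩)
      refine ⟨S', h1, h2, ⟨(P, t), (J, j), h6, Or.inr (Or.inr ⟨?_, g.refl _, ?_, ?_⟩)⟩, h3⟩
      · exact g.of_subset h4
      · exact g.of_subset h5
      · exact g.of_subset hKJ

/-- the starting labels -/
def start : Set Item := {Sum.inl (∅, Val.lo 0), Sum.inl (Set.univ, Val.up 0)}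

theorem start_countable : start.Countable :=
  (Set.toFinite {Sum.inl (∅, Val.lo 0), Sum.inl (Set.univ, Val.up 0)}).countable

theorem valid_start (g : Good R) : Valid R start := by
  constructor
  · rintro a b (ha | ha) (hb | hb) hab
    · cases ha; cases hb; exact le_rfl
    · cases ha; cases hb; exact (Val.lo_lt_up _ _).le
    · cases ha; cases hb; exact absurd hab g.univ_empty
    · cases ha; cases hb; exact le_rfl
  · rintro a b (h | h) <;> cases h
  · rintro a b (h | h) <;> cases h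
  · rintro a b a' b' (h | h) <;> cases h

/-- decide the label of a set -/
theorem Valid.label (g : Good R) {S : Set Item} (h : Valid R S) (hs : Sm S) (y : Set ℕ) :
    ∃ S' v, S ⊆ S' ∧ Valid R S' ∧ Sm S' ∧ Sum.inl (y, v) ∈ S' ∧ (S' \ S).Countable := by
  obtain ⟨v, hv⟩ := h.decide g hs y
  refine ⟨_, v, Set.subset_insert _ _, hv, ?_, Or.inl rfl, ?_⟩
  · have := hs.union_countable (C := {Sum.inl (y, v)}) (Set.countable_singleton _)
    rwa [Set.union_singleton] at this
  · refine (Set.countable_singleton (Sum.inl (y, v))).mono ?_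
    rintro d ⟨hd | hd, hdS⟩
    · exact hd
    · exact absurd hd hdS

theorem Valid.interval (g : Good R) {S : Set Item} (h : Valid R S) (hS : Sm S)
    (h0 : start ⊆ S) {I J X K : Set ℕ} (hIX : I ⊆ X) (hKJ : K ⊆ J) :
    ∃ S', S ⊆ S' ∧ Valid R S' ∧ Cov R S' I J X K ∧ (S' \ S).Countable := by
  obtain ⟨S1, i, s1, v1, m1, hI, c1⟩ := h.label g hS I
  obtain ⟨S2, j, s2, v2, m2, hJ, c2⟩ := v1.label g m1 J
  obtain ⟨S3, x, s3, v3, m3, hX, c3⟩ := v2.label g m2 X
  obtain ⟨S4, k, s4, v4, m4, hK, c4⟩ := v3.label g m3 K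
  have hI4 : Sum.inl (I, i) ∈ S4 := s4 (s3 (s2 hI))
  have hJ4 : Sum.inl (J, j) ∈ S4 := s4 (s3 hJ)
  have hX4 : Sum.inl (X, x) ∈ S4 := s4 hX
  have hE4 : Sum.inl (∅, Val.lo 0) ∈ S4 := s4 (s3 (s2 (s1 (h0 (Or.inl rfl)))))
  have hU4 : Sum.inl (Set.univ, Val.up 0) ∈ S4 := s4 (s3 (s2 (s1 (h0 (Or.inr rfl)))))
  have hS4 : S ⊆ S4 := s1.trans (s2.trans (s3.trans s4))
  suffices hsuff : ∃ S', S4 ⊆ S' ∧ Valid R S' ∧ Cov R S' I J X K ∧ (S' \ S4).Countable by
    obtain ⟨S', h1, h2, h3, h4⟩ := hsuff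
    refine ⟨S', hS4.trans h1, h2, h3, ?_⟩
    refine ((((c1.union c2).union c3).union c4).union h4).mono ?_
    rintro d ⟨hd, hdS⟩
    by_cases d4 : d ∈ S4
    · left
      by_cases d3 : d ∈ S3
      · left
        by_cases d2 : d ∈ S2
        · left
          by_cases d1 : d ∈ S1
          · exact Or.inl ⟨d1, hdS⟩
          · exact Or.inr ⟨d2, d1⟩
        · exact Or.inr ⟨d3, d2⟩
      · exact Or.inr ⟨d4, d3⟩
    · exact Or.inr ⟨hd, d4⟩
  by_cases hlow : Val.isU i → i < j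
  · by_cases hupp : Val.isL x → k < x
    · exact v4.core g m4 hI4 hJ4 hX4 hK hIX hKJ hlow hupp
    · obtain ⟨hxL, hxk⟩ : Val.isL x ∧ x ≤ k := by
        by_contra hcon
        exact hupp fun hx => not_le.mp fun hle => hcon ⟨hx, hle⟩
      obtain ⟨S', h1, h2, ⟨a, b, hab, h3⟩, h4⟩ := v4.core g m4 (I := X) (J := K) (X := Set.univ)
        (K := ∅) hX4 hK hU4 hE4 (subset_univ _) (empty_subset _)
        (fun hxU => absurd hxU hxL.not_isU)
        (fun hL => absurd hL (Val.not_isL_up 0))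
      refine ⟨S', h1, h2, ⟨a, b, hab, ?_⟩, h4⟩
      rcases h3 with ⟨h5, h6⟩ | ⟨h5, h6⟩ | ⟨h5, h6, -, -⟩
      · exfalso
        have h7 : a.2 ≤ x := h2.mono a (X, x) (h2.mem _ _ hab).1 (h1 hX4) h5
        have h8 : k ≤ b.2 := h2.mono (K, k) b (h1 hK) (h2.mem _ _ hab).2 h6
        rcases h2.allowed _ _ hab with ⟨-, h9⟩ | ⟨h9, -⟩
        · exact lt_irrefl _ (h9.trans_le (h7.trans (hxk.trans h8)))
        · exact (h9.of_le h7).not_isL hxL
      · exact Or.inr (Or.inl ⟨g.trans (g.of_subset (subset_univ _)) h5,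
          g.trans h6 (g.of_subset (empty_subset _))⟩)
      · exact Or.inr (Or.inl ⟨h5, h6⟩)
  · obtain ⟨hiU, hji⟩ : Val.isU i ∧ j ≤ i := by
      by_contra hcon
      exact hlow fun hi => not_le.mp fun hle => hcon ⟨hi, hle⟩
    obtain ⟨S', h1, h2, ⟨a, b, hab, h3⟩, h4⟩ := v4.core g m4 (I := ∅) (J := Set.univ) (X := I)
      (K := J) hE4 hU4 hI4 hJ4 (empty_subset _) (subset_univ _)
      (fun hU => absurd hU (Val.not_isU_lo 0))
      (fun hL => absurd hiU hL.not_isU)
    refine ⟨S', h1, h2, ⟨a, b, hab, ?_⟩, h4⟩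
    rcases h3 with ⟨h5, h6⟩ | ⟨h5, h6⟩ | ⟨-, -, h5, h6⟩
    · exact Or.inl ⟨g.trans h5 (g.of_subset (empty_subset _)),
        g.trans (g.of_subset (subset_univ _)) h6⟩
    · exfalso
      have h7 : i ≤ a.2 := h2.mono (I, i) a (h1 hI4) (h2.mem _ _ hab).1 h5
      have h8 : b.2 ≤ j := h2.mono b (J, j) (h2.mem _ _ hab).2 (h1 hJ4) h6
      rcases h2.allowed _ _ hab with ⟨h9, -⟩ | ⟨-, h9⟩
      · exact (h9.of_le h7).not_isU hiU
      · exact lt_irrefl _ (h9.trans_le (h8.trans (hji.trans h7)))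
    · exact Or.inl ⟨h5, h6⟩

/-- the tasks of the recursion -/
abbrev Task : Type := Set ℕ ⊕ (Set ℕ × Set ℕ × Set ℕ × Set ℕ)

def DoneT (R : Set ℕ → Set ℕ → Prop) (t : Task) (S : Set Item) : Prop :=
  match t with
  | Sum.inl y => ∃ v, Sum.inl (y, v) ∈ S
  | Sum.inr (I, J, X, K) => I ⊆ X → K ⊆ J → Cov R S I J X K

theorem exists_total (g : Good R) :
    ∃ S : Set Item, Valid R S ∧ start ⊆ S ∧ (∀ y : Set ℕ, ∃ v, Sum.inl (y, v) ∈ S) ∧
      ∀ I J X K : Set ℕ, I ⊆ X → K ⊆ J → Cov R S I J X K := by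
  have hcard : #Task = 𝔠 := by simp only [mk_sum, mk_set, mk_eq_aleph0, two_power_aleph0, lift_id, mk_prod, continuum_mul_self, continuum_add_self]
  let T : Type := (𝔠 : Cardinal.{0}).ord.ToType
  have hT : #T = 𝔠 := by simp only [mk_toType, card_ord, T]
  obtain ⟨e⟩ : Nonempty (T ≃ Task) := Cardinal.eq.mp (hT.trans hcard.symm)
  obtain ⟨S, h1, h2, h3⟩ := build (D := Item) (T := T)
    (fun t => by
      have := mk_Iio_lt t (by simp only [mk_toType, card_ord, Ordinal.type_toType, T])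
      rwa [hT] at this)
    (Valid R) start start_countable
    (fun c hc hcV => (valid_start g).sUnion c hc hcV)
    (fun t S => DoneT R (e t) S)
    (by
      intro t S S' hSS' h
      rcases he : e t with y | ⟨I, J, X, K⟩
      · rw [he] at h
        obtain ⟨v, hv⟩ := h
        exact ⟨v, hSS' hv⟩
      · rw [he] at h
        exact fun h1 h2 => (h h1 h2).mono hSS')
    (by
      intro t S hv hm h0
      rcases he : e t with y | ⟨I, J, X, K⟩
      · obtain ⟨S', v, g1, g2, -, g3, g4⟩ := hv.label g hm y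
        exact ⟨S', g1, g2, ⟨v, g3⟩, g4⟩
      · by_cases hIX : I ⊆ X
        · by_cases hKJ : K ⊆ J
          · obtain ⟨S', g1, g2, g3, g4⟩ := hv.interval g hm h0 hIX hKJ
            exact ⟨S', g1, g2, fun _ _ => g3, g4⟩
          · exact ⟨S, subset_rfl, hv, fun _ hh => absurd hh hKJ, by simp only [_root_.sdiff_self, bot_eq_empty, countable_empty]⟩
        · exact ⟨S, subset_rfl, hv, fun hh => absurd hh hIX, by simp only [_root_.sdiff_self, bot_eq_empty, countable_empty]⟩)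
  refine ⟨S, h1, h2, ?_, ?_⟩
  · intro y
    have := h3 (e.symm (Sum.inl y))
    rw [e.apply_symm_apply] at this
    exact this
  · intro I J X K
    have := h3 (e.symm (Sum.inr (I, J, X, K)))
    rw [e.apply_symm_apply] at this
    exact this

end Vale.Agent.P068.ZRec
end
end

section

section

/-!
# P068: a ranked uniform matroid, in ZFC
-/

open Cardinal Set Filter

namespace Vale.Agent.P068

open ZRec

/-- comparison modulo negligible sets -/
def ZR (lev : ℕ → ℕ) (w : ℕ → ℕ) (A B : Set ℕ) : Prop := Nul lev w (A \ B)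

theorem zr_good {lev : ℕ → ℕ} {w : ℕ → ℕ} (hL : Levels lev w) (hu : ¬ Nul lev w Set.univ)
    (hs : ∀ C : Set (Set ℕ), #C < 𝔠 → (∀ A ∈ C, ¬ Nul lev w A) →
      ∃ S : Set ℕ, ∀ A ∈ C, ¬ Nul lev w (A ∩ S) ∧ ¬ Nul lev w (A \ S)) :
    Good (ZR lev w) where
  of_subset := by
    intro A B h
    unfold ZR
    rw [Set.sdiff_eq_empty.mpr h]
    exact nul_empty lev w
  trans := by
    intro A B C h h'
    refine (h.union h').mono hL ?_
    intro x hx
    by_cases hB : x ∈ B
    · exact Or.inr ⟨hB, hx.2⟩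
    · exact Or.inl ⟨hx.1, hB⟩
  generic := by
    intro I X hIX C hC
    let W := X \ I
    let C' : Set (Set ℕ) :=
      {A | ¬ Nul lev w A ∧ A ∈ (fun Z => Z ∩ W) '' C ∪ (fun Z => W \ Z) '' C}
    have hC' : #C' < 𝔠 := by
      have h1 : #C' ≤ #((fun Z => Z ∩ W) '' C ∪ (fun Z => W \ Z) '' C : Set (Set ℕ)) :=
        Cardinal.mk_le_mk_of_subset fun A hA => hA.2
      refine h1.trans_lt ((Cardinal.mk_union_le _ _).trans_lt ?_)
      exact Cardinal.add_lt_of_lt Cardinal.aleph0_le_continuum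
        (Cardinal.mk_image_le.trans_lt hC) (Cardinal.mk_image_le.trans_lt hC)
    obtain ⟨S, hS⟩ := hs C' hC' (fun A hA => hA.1)
    refine ⟨I ∪ (S ∩ W), subset_union_left, ?_, ?_⟩
    · exact union_subset hIX (fun x hx => hx.2.1)
    · intro Z hZ
      constructor
      · intro h
        have h1 : Nul lev w (Z ∩ W) := by
          by_contra hinf
          refine (hS (Z ∩ W) ⟨hinf, Or.inl ⟨Z, hZ, rfl⟩⟩).2 (Nul.mono hL h ?_)
          rintro x ⟨⟨hxZ, hxW⟩, hxS⟩
          refine ⟨hxZ, ?_⟩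
          rintro (hxI | hx)
          · exact hxW.2 hxI
          · exact hxS hx.1
        refine (h1.union h).mono hL ?_
        rintro x ⟨hxZ, hxI⟩
        by_cases hxX : x ∈ X
        · exact Or.inl ⟨hxZ, hxX, hxI⟩
        · refine Or.inr ⟨hxZ, ?_⟩
          rintro (hx | hx)
          · exact hxI hx
          · exact hxX hx.2.1
      · intro h
        have h1 : Nul lev w (W \ Z) := by
          by_contra hinf
          refine (hS (W \ Z) ⟨hinf, Or.inr ⟨Z, hZ, rfl⟩⟩).1 (Nul.mono hL h ?_)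
          rintro x ⟨⟨hxW, hxZ⟩, hxS⟩
          exact ⟨Or.inr ⟨hxS, hxW⟩, hxZ⟩
        refine (h1.union h).mono hL ?_
        rintro x ⟨hxX, hxZ⟩
        by_cases hxI : x ∈ I
        · exact Or.inr ⟨Or.inl hxI, hxZ⟩
        · exact Or.inl ⟨⟨hxX, hxI⟩, hxZ⟩
  univ_empty := by
    unfold ZR
    rw [Set.sdiff_empty]
    exact hu

theorem zblk_sdiff_nul {lev : ℕ → ℕ} {w : ℕ → ℕ} (hL : Levels lev w)
    {P Q P' Q' : Set ℕ} :
    Nul (Sum.elim lev lev : ℕ ⊕ ℕ → ℕ) w (blk P Q \ blk P' Q') ↔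
      ZR lev w P P' ∧ ZR lev w Q' Q := by
  have key : ∀ (U V : Set ℕ) (n : ℕ), lcnt (Sum.elim lev lev : ℕ ⊕ ℕ → ℕ)
      (Sum.inl '' U ∪ Sum.inr '' V) n = lcnt lev U n + lcnt lev V n := by
    intro U V n
    unfold lcnt
    have h1 : (Sum.inl '' U ∪ Sum.inr '' V : Set (ℕ ⊕ ℕ)) ∩
        {a | (Sum.elim lev lev : ℕ ⊕ ℕ → ℕ) a = n} =
        Sum.inl '' (U ∩ {a | lev a = n}) ∪ Sum.inr '' (V ∩ {a | lev a = n}) := by
      ext a
      rcases a with a | a <;> simp
    rw [h1, Set.ncard_union_eq ?_ (((hL.fin n).subset inter_subset_right).image _)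
      (((hL.fin n).subset inter_subset_right).image _),
      Set.ncard_image_of_injective _ Sum.inl_injective,
      Set.ncard_image_of_injective _ Sum.inr_injective]
    rw [Set.disjoint_left]
    rintro _ ⟨a, -, rfl⟩ ⟨b, -, hb⟩
    cases hb
  have h : blk P Q \ blk P' Q' = Sum.inl '' (P \ P') ∪ Sum.inr '' (Q' \ Q) := by
    ext x
    rcases x with n | n <;> simp [blk]
    tauto
  rw [h]
  unfold ZR Nul
  constructor
  · intro hn
    constructor
    · intro j
      filter_upwards [hn j] with n h1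
      rw [key] at h1
      nlinarith
    · intro j
      filter_upwards [hn j] with n h1
      rw [key] at h1
      nlinarith only [h1]
  · rintro ⟨h1, h2⟩ j
    filter_upwards [h1 (2 * j), h2 (2 * j)] with n h3 h4
    rw [key]
    linarith

theorem eq_zblk (D : Set (ℕ ⊕ ℕ)) : D = blk (Sum.inl ⁻¹' D) (Sum.inr ⁻¹' D)ᶜ := by
  ext x
  rcases x with n | n <;> simp [blk]

/-- There is a ranked uniform matroid. -/
theorem exists_ranked_zfc :
    ∃ (K : Matroid (ℕ ⊕ ℕ)) (big : Set ℕ → Prop) (rk : Set ℕ → Ordinal.{0}),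
      Ranked K big rk := by
  obtain ⟨lev, w, hL, hL2, hu, hs⟩ := exists_zideal
  have g : Good (ZR lev w) := zr_good hL hu hs
  obtain ⟨S, hv, h0, hlab, hcov⟩ := ZRec.exists_total g
  choose τ hτ using hlab
  have hE : τ ∅ = Val.lo 0 :=
    le_antisymm (hv.mono _ (∅, Val.lo 0) (hτ ∅) (h0 (Or.inl rfl)) (g.refl _))
      (hv.mono (∅, Val.lo 0) _ (h0 (Or.inl rfl)) (hτ ∅) (g.refl _))
  have hU : τ Set.univ = Val.up 0 :=
    le_antisymm (hv.mono _ (Set.univ, Val.up 0) (hτ Set.univ) (h0 (Or.inr rfl)) (g.refl _))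
      (hv.mono (Set.univ, Val.up 0) _ (h0 (Or.inr rfl)) (hτ Set.univ) (g.refl _))
  obtain ⟨M, hME, hMB, hMU⟩ := exists_uniform_matroid_nul hL2
    {D : Set (ℕ ⊕ ℕ) | ∃ a b : Lab, Sum.inr (a, b) ∈ S ∧ D = blk a.1 b.1}
    (by
      rintro _ ⟨a, b, hab, rfl⟩ _ ⟨a', b', hab', rfl⟩ hfin
      obtain ⟨h1, h2⟩ := (zblk_sdiff_nul hL).mp hfin
      obtain ⟨rfl, rfl⟩ := hv.anti _ _ _ _ hab hab' h1 h2
      rfl)
    (by
      intro D D' hDD'
      have hIX : Sum.inl ⁻¹' D ⊆ Sum.inl ⁻¹' D' := preimage_mono hDD'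
      have hKJ : (Sum.inr ⁻¹' D')ᶜ ⊆ (Sum.inr ⁻¹' D)ᶜ := compl_subset_compl.mpr (preimage_mono hDD')
      obtain ⟨a, b, hab, h⟩ := hcov _ _ _ _ hIX hKJ
      refine ⟨blk a.1 b.1, ⟨a, b, hab, rfl⟩, ?_⟩
      rcases h with h | h | h
      · left
        rw [eq_zblk D]
        exact (zblk_sdiff_nul hL).mpr h
      · right; left
        rw [eq_zblk D']
        exact (zblk_sdiff_nul hL).mpr h
      · right; right
        constructor
        · rw [eq_zblk D]
          exact (zblk_sdiff_nul hL).mpr ⟨h.1, h.2.1⟩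
        · rw [eq_zblk D']
          exact (zblk_sdiff_nul hL).mpr ⟨h.2.2.1, h.2.2.2⟩)
  refine ⟨M, fun P => Val.isU (τ P), fun P => Val.rk (τ P), hME, hMU, ?_, ?_, ?_, ?_⟩
  · rw [hE]
    exact Val.not_isU_lo 0
  · rw [hU]
    exact ⟨0, rfl⟩
  · intro P Q hind hP
    obtain ⟨B, hB, hsub⟩ := hind.exists_isBase_superset
    obtain ⟨_, ⟨a, b, hab, rfl⟩, hfin, -⟩ := hMB B hB
    have h1 : Nul (Sum.elim lev lev : ℕ ⊕ ℕ → ℕ) w (blk P Q \ blk a.1 b.1) :=
      hfin.mono hL2 (sdiff_subset_sdiff_left hsub)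
    obtain ⟨h2, h3⟩ := (zblk_sdiff_nul hL).mp h1
    have h4 : τ P ≤ a.2 := hv.mono (P, τ P) a (hτ P) (hv.mem _ _ hab).1 h2
    have h5 : b.2 ≤ τ Q := hv.mono b (Q, τ Q) (hv.mem _ _ hab).2 (hτ Q) h3
    rcases hv.allowed _ _ hab with ⟨h6, -⟩ | ⟨-, h6⟩
    · exact absurd (hP.of_le h4) h6.not_isU
    · have h7 : τ P < τ Q := h4.trans_lt (h6.trans_le h5)
      exact ⟨hP.of_le h7.le, Val.rk_lt_of_isU hP h7⟩
  · intro P Q hspan hP
    have hPL : Val.isL (τ P) := (Val.isL_or_isU _).resolve_right hP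
    obtain ⟨B, hB, hsub⟩ := hspan.exists_isBase_subset
    obtain ⟨_, ⟨a, b, hab, rfl⟩, -, hfin⟩ := hMB B hB
    have h1 : Nul (Sum.elim lev lev : ℕ ⊕ ℕ → ℕ) w (blk a.1 b.1 \ blk P Q) :=
      hfin.mono hL2 (sdiff_subset_sdiff_right hsub)
    obtain ⟨h2, h3⟩ := (zblk_sdiff_nul hL).mp h1
    have h4 : a.2 ≤ τ P := hv.mono a (P, τ P) (hv.mem _ _ hab).1 (hτ P) h2
    have h5 : τ Q ≤ b.2 := hv.mono (Q, τ Q) b (hτ Q) (hv.mem _ _ hab).2 h3
    rcases hv.allowed _ _ hab with ⟨-, h6⟩ | ⟨h6, -⟩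
    · have h7 : τ Q < τ P := h5.trans_lt (h6.trans_le h4)
      exact ⟨(hPL.of_le h7.le).not_isU, Val.rk_lt_of_isL hPL h7⟩
    · exact absurd hPL (h6.of_le h4).not_isL

end Vale.Agent.P068
end
end

section

section

namespace Vale.Agent.P068

open Set Matroid

variable {α : Type*}

theorem restrict_dual_dual (M : Matroid α) {P C : Set α} (hPC : P ∪ C = M.E)
    (hd : Disjoint P C) : (M✶ ↾ P)✶ = M ／ C := by
  have hP : P = M✶.E \ C := by
    rw [dual_ground, ← hPC, union_sdiff_right, hd.sdiff_eq_left]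
  conv_lhs => rw [hP]
  rfl

/-- If `S` spans `N✶ ↾ P` then `P \ S` is independent in `N ／ C`. -/
theorem contract_indep_diff (N : Matroid α) {P C S : Set α} (hPC : P ∪ C = N.E)
    (hd : Disjoint P C) (hS : S ⊆ P) (h : (N✶ ↾ P).closure S = P) :
    (N ／ C).Indep (P \ S) := by
  rw [← restrict_dual_dual N hPC hd, ← coindep_def]
  have hsp : (N✶ ↾ P).Spanning S := by
    rw [spanning_iff]
    exact ⟨h, hS⟩
  exact hsp.compl_coindep

/-- If `I` is independent in `(N ↾ C)✶` then `C` is in the closure of `C \ I`. -/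
theorem subset_closure_of_indep_dual (N : Matroid α) {C I : Set α} (hC : C ⊆ N.E)
    (h : ((N ↾ C)✶).Indep I) : C ⊆ N.closure (C \ I) := by
  rw [← coindep_def] at h
  have h2 := h.compl_spanning.closure_eq
  rw [restrict_ground_eq, restrict_closure_eq N sdiff_subset hC] at h2
  exact inter_eq_right.1 h2

/-- T-PC. -/
theorem satisfiesIntersection_of_packingCovering (M N : Matroid α) (hE : M.E = N.E)
    (h : HasPackingCovering M.E (fun b : Bool => if b then M else N✶)) :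
    SatisfiesIntersection M N := by
  obtain ⟨P, C, S, I, hPC, hd, hSP, hIC, hSd, hcl, hind, hU⟩ := h
  have hPE : P ⊆ M.E := hPC ▸ subset_union_left
  have hCE : C ⊆ M.E := hPC ▸ subset_union_right
  have hclM := hcl true
  have hclN := hcl false
  have hindM := hind true
  have hindN := hind false
  simp only [if_true, Bool.false_eq_true, if_false, dual_dual] at hclM hclN hindM hindN
  have hUC : C ⊆ I true ∪ I false := by
    rw [← hU]
    refine iUnion_subset fun b => ?_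
    cases b
    · exact subset_union_right
    · exact subset_union_left
  obtain ⟨JM, hJM⟩ := M.exists_isBasis (S true) ((hSP true).trans hPE)
  obtain ⟨JN, hJN⟩ := N.exists_isBasis (C \ I false) (sdiff_subset.trans (hE ▸ hCE))
  have hJMP : JM ⊆ P := hJM.subset.trans (hSP true)
  have hJNC : JN ⊆ C := hJN.subset.trans sdiff_subset
  have hPcl : P ⊆ M.closure JM := by
    rw [hJM.closure_eq_closure]
    rw [restrict_closure_eq M (hSP true) hPE] at hclM
    exact inter_eq_right.1 hclM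
  have hCcl : C ⊆ N.closure JN := by
    rw [hJN.closure_eq_closure]
    exact subset_closure_of_indep_dual N (hE ▸ hCE) hindN
  have hbP : M.IsBasis JM P := hJM.indep.isBasis_of_subset_of_subset_closure hJMP hPcl
  have hbC : N.IsBasis JN C := hJN.indep.isBasis_of_subset_of_subset_closure hJNC hCcl
  have h1 : (N ／ C).Indep JM := by
    refine (contract_indep_diff N (hPC.trans hE) hd (hSP false) hclN).subset ?_
    refine subset_sdiff.2 ⟨hJMP, ?_⟩
    exact (hSd true false (by simp)).mono_left hJM.subset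
  have h2 : (M ／ P).Indep JN := by
    rw [restrict_dual_dual M (by rw [union_comm]; exact hPC) hd.symm] at hindM
    refine hindM.subset fun x hx => ?_
    have hx2 := hJN.subset hx
    rcases hUC hx2.1 with h | h
    · exact h
    · exact absurd h hx2.2
  rw [hbC.contract_indep_iff] at h1
  rw [hbP.contract_indep_iff, union_comm] at h2
  refine ⟨JM, JN, hd.mono hJMP hJNC, h2.1, h1.1, ?_⟩
  refine subset_antisymm (union_subset (closure_subset_ground _ _)
    (hE ▸ closure_subset_ground _ _)) ?_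
  rw [← hPC]
  exact union_subset_union hPcl hCcl

end Vale.Agent.P068
end
end

section

section

/-!
# P068: the counterexample, in ZFC
-/

open Cardinal Set Matroid

namespace Vale.Agent.P068

theorem satisfiesIntersection_of_mapEquiv {α β : Type*} {M N : Matroid α} (e : α ≃ β)
    (h : SatisfiesIntersection (M.mapEquiv e) (N.mapEquiv e)) : SatisfiesIntersection M N := by
  obtain ⟨JM, JN, hd, hM, hN, hcl⟩ := h
  have hpre : ∀ X : Set β, e.symm '' X = e ⁻¹' X := fun X => e.image_symm_eq_preimage X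
  refine ⟨e ⁻¹' JM, e ⁻¹' JN, hd.preimage e, ?_, ?_, ?_⟩
  · rw [mapEquiv_indep_iff, hpre] at hM
    exact hM
  · rw [mapEquiv_indep_iff, hpre] at hN
    exact hN
  · rw [mapEquiv_eq_map, mapEquiv_eq_map, map_closure_eq, map_closure_eq, ← image_union,
      map_ground] at hcl
    exact e.injective.image_injective hcl

theorem counterexample_zfc :
    ∃ M N : Matroid ℕ, M.E = Set.univ ∧ N.E = Set.univ ∧ ¬ SatisfiesIntersection M N := by
  obtain ⟨K, big, rk, hR⟩ := exists_ranked_zfc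
  have e : ℤ × (ℕ ⊕ ℕ) ≃ ℕ := Classical.choice (Denumerable.eqv _ |> fun f => ⟨f⟩)
  refine ⟨(netM K).mapEquiv e, (netN K).mapEquiv e, ?_, ?_, ?_⟩
  · rw [mapEquiv_ground_eq, netM_ground hR.ground, image_univ, e.surjective.range_eq]
  · rw [mapEquiv_ground_eq, netN_ground hR.ground, image_univ, e.surjective.range_eq]
  · intro h
    exact not_intersects hR (satisfiesIntersection_of_mapEquiv e h)

end Vale.Agent.P068
end
end
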